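import Vale.Agent.P092.H553.Ops

/-!
P092 (helper553): the maps `F ↦ lim_k W(z_k)* F_k W(z_k)`.
-/

set_option linter.all false

open scoped InnerProductSpace
open Filter Topology ContinuousLinearMap

namespace Vale.Agent.P092.H553

open Vale.Agent.P092.H160

variable {Γ Λ : Type} [Group Γ] [Group Λ] {V : Λ →* (Ell2 Γ →L[ℂ] Ell2 Γ)}
  {U : Ultrafilter ℕ} {z : ℕ → Λ} {F F' D : ℕ → Γ → ℝ} {C C' : ℝ}

/-- `lim_k W(z_k)* F_k W(z_k)`. -/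
noncomputable def PiL (U : Ultrafilter ℕ) (V : Λ →* (Ell2 Γ →L[ℂ] Ell2 Γ)) (z : ℕ → Λ)
    (F : ℕ → Γ → ℝ) : Ell2 Γ →L[ℂ] Ell2 Γ :=
  wl U (fun k => adjoint (Wr V (z k)) * mo (F k) * Wr V (z k))

/-- The functions `D_k` are asymptotically zero on the vectors `W(z_k) ξ`. -/
def Small (U : Ultrafilter ℕ) (V : Λ →* (Ell2 Γ →L[ℂ] Ell2 Γ)) (z : ℕ → Λ)
    (D : ℕ → Γ → ℝ) : Prop :=
  ∀ ξ : Ell2 Γ, Tendsto (fun k => ‖mo (D k) (Wr V (z k) ξ)‖) U (𝓝 0)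

section

variable (hV : Frame V)

include hV

theorem norm_W (v : Λ) (ξ : Ell2 Γ) : ‖Wr V v ξ‖ = ‖ξ‖ := (regRep_W hV).norm_map v ξ

theorem inner_W (v : Λ) (ξ η : Ell2 Γ) : ⟪Wr V v ξ, Wr V v η⟫_ℂ = ⟪ξ, η⟫_ℂ :=
  (regRep_W hV).inner_map v ξ η

theorem pl_bdd (hF : ∀ k g, |F k g| ≤ C) (k : ℕ) :
    ‖adjoint (Wr V (z k)) * mo (F k) * Wr V (z k)‖ ≤ C := by
  have hC : 0 ≤ C := (abs_nonneg _).trans (hF 0 1)
  refine ContinuousLinearMap.opNorm_le_bound _ hC fun ξ => ?_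
  rw [mul_ap, mul_ap, (regRep_W hV).adj, norm_W hV]
  refine (norm_mo_le (hF k) _).trans ?_
  rw [norm_W hV]

theorem pl_spec (hF : ∀ k g, |F k g| ≤ C) (ξ η : Ell2 Γ) :
    Tendsto (fun k => ⟪Wr V (z k) ξ, mo (F k) (Wr V (z k) η)⟫_ℂ) U
      (𝓝 ⟪ξ, PiL U V z F η⟫_ℂ) := by
  refine (wl_spec U (pl_bdd hV hF) ξ η).congr fun k => ?_
  rw [mul_ap, mul_ap, adjoint_inner_right]

theorem pl_norm_le (hF : ∀ k g, |F k g| ≤ C) (ξ η : Ell2 Γ) :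
    ‖⟪ξ, PiL U V z F η⟫_ℂ‖ ≤ C * ‖ξ‖ * ‖η‖ := by
  refine le_of_tendsto (pl_spec hV hF ξ η).norm (Eventually.of_forall fun k => ?_)
  refine (norm_inner_le_norm _ _).trans ?_
  have h1 := norm_mo_le (hF k) (Wr V (z k) η)
  rw [norm_W hV] at h1 ⊢
  calc ‖ξ‖ * ‖mo (F k) (Wr V (z k) η)‖ ≤ ‖ξ‖ * (C * ‖η‖) := by gcongr
    _ = C * ‖ξ‖ * ‖η‖ := by ring

theorem pl_sym (hF : ∀ k g, |F k g| ≤ C) (ξ η : Ell2 Γ) :
    ⟪PiL U V z F ξ, η⟫_ℂ = ⟪ξ, PiL U V z F η⟫_ℂ := by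
  refine tendsto_nhds_unique ?_ (pl_spec hV hF ξ η)
  have h1 := (Complex.continuous_conj.tendsto _).comp (pl_spec (z := z) (U := U) hV hF η ξ)
  rw [inner_conj_symm] at h1
  refine h1.congr fun k => ?_
  rw [Function.comp_apply, inner_conj_symm, inner_mo_left (hF k)]

theorem pl_nonneg (hF : ∀ k g, |F k g| ≤ C) (h0 : ∀ k g, 0 ≤ F k g) : 0 ≤ PiL U V z F := by
  refine H108.nonneg_of_inner ?_ fun ζ => ?_
  · rw [IsSelfAdjoint, star_eq_adjoint, eq_comm, ContinuousLinearMap.eq_adjoint_iff]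
    exact pl_sym hV hF
  · refine ge_of_tendsto ((Complex.continuous_re.tendsto _).comp (pl_spec hV hF ζ ζ))
      (Eventually.of_forall fun k => ?_)
    rw [Function.comp_apply, inner_mo (hF k), Complex.ofReal_re]
    exact tsum_nonneg fun g => mul_nonneg (h0 k g) (by positivity)

theorem pl_congr (hF : ∀ k g, |F k g| ≤ C) (hF' : ∀ k g, |F' k g| ≤ C')
    (h : Small U V z (fun k g => F k g - F' k g)) : PiL U V z F = PiL U V z F' := by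
  refine op_ext_inner fun ξ η => ?_
  refine tendsto_nhds_unique (pl_spec hV hF ξ η) ?_
  have h1 : Tendsto (fun k => ⟪Wr V (z k) ξ, mo (fun g => F k g - F' k g) (Wr V (z k) η)⟫_ℂ) U
      (𝓝 0) := by
    rw [tendsto_zero_iff_norm_tendsto_zero]
    have h2 := (h η).const_mul ‖ξ‖
    rw [mul_zero] at h2
    refine squeeze_zero (fun k => norm_nonneg _) (fun k => ?_) h2
    refine (norm_inner_le_norm _ _).trans ?_
    rw [norm_W hV]
  have h3 := h1.add (pl_spec (z := z) (U := U) hV hF' ξ η)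
  rw [zero_add] at h3
  refine h3.congr fun k => ?_
  rw [mo_sub (hF k) (hF' k), ← inner_add_right, sub_add_cancel]

theorem pl_add (hF : ∀ k g, |F k g| ≤ C) (hF' : ∀ k g, |F' k g| ≤ C') :
    PiL U V z (fun k g => F k g + F' k g) = PiL U V z F + PiL U V z F' := by
  refine op_ext_inner fun ξ η => ?_
  have h : ∀ k g, |F k g + F' k g| ≤ C + C' := fun k g =>
    (abs_add_le _ _).trans (add_le_add (hF k g) (hF' k g))
  refine tendsto_nhds_unique (pl_spec hV h ξ η) ?_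
  rw [add_apply, inner_add_right]
  refine ((pl_spec hV hF ξ η).add (pl_spec hV hF' ξ η)).congr fun k => ?_
  rw [mo_add (hF k) (hF' k), inner_add_right]

theorem pl_smul (c : ℝ) (hF : ∀ k g, |F k g| ≤ C) :
    PiL U V z (fun k g => c * F k g) = (c : ℂ) • PiL U V z F := by
  refine op_ext_inner fun ξ η => ?_
  have h : ∀ k g, |c * F k g| ≤ |c| * C := fun k g => by
    rw [abs_mul]
    have := hF k g
    gcongr
  refine tendsto_nhds_unique (pl_spec hV h ξ η) ?_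
  rw [smul_apply, inner_smul_right]
  refine ((pl_spec hV hF ξ η).const_mul (c : ℂ)).congr fun k => ?_
  rw [mo_smul c (hF k), inner_smul_right]

theorem pl_mono (hF : ∀ k g, |F k g| ≤ C) (hF' : ∀ k g, |F' k g| ≤ C')
    (h : ∀ k g, F k g ≤ F' k g) (ξ : Ell2 Γ) :
    (⟪ξ, PiL U V z F ξ⟫_ℂ).re ≤ (⟪ξ, PiL U V z F' ξ⟫_ℂ).re := by
  refine le_of_tendsto_of_tendsto ((Complex.continuous_re.tendsto _).comp (pl_spec hV hF ξ ξ))
    ((Complex.continuous_re.tendsto _).comp (pl_spec hV hF' ξ ξ)) (Eventually.of_forall fun k => ?_)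
  exact inner_mo_re_mono (hF k) (hF' k) (h k) _

/-- Left covariance. -/
theorem pl_lam (hF : ∀ k g, |F k g| ≤ C) (hF' : ∀ k g, |F' k g| ≤ C') (s : Γ)
    (h : Small U V z (fun k g => F k (s⁻¹ * g) - F' k g)) (ξ : Ell2 Γ) :
    lam s (PiL U V z F ξ) = PiL U V z F' (lam s ξ) := by
  rw [← pl_congr hV (F := fun k g => F k (s⁻¹ * g)) (fun k g => hF k _) hF' h]
  refine ext_inner_left ℂ fun η => ?_
  refine tendsto_nhds_unique ?_
    (pl_spec hV (F := fun k g => F k (s⁻¹ * g)) (fun k g => hF k _) η (lam s ξ))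
  have h1 : ⟪η, lam s (PiL U V z F ξ)⟫_ℂ = ⟪lam s⁻¹ η, PiL U V z F ξ⟫_ℂ := by
    rw [← adjoint_lam, adjoint_inner_left]
  rw [h1]
  refine (pl_spec hV hF (lam s⁻¹ η) ξ).congr fun k => ?_
  rw [Wr_lam hV, Wr_lam hV, ← lam_mo (hF k), ← adjoint_lam, adjoint_inner_left]

/-- Approximation of `W_v` on left bounded vectors. -/
theorem W_approx (v x : Λ) (a : Γ) (s : Finset Γ) (c : Γ → ℂ) :
    Wr V v (Wr V x (dl a)) - ∑ t ∈ s, c t • rho t⁻¹ (Wr V x (dl a)) =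
      lam a (V x⁻¹ (V v⁻¹ (dl 1) - ∑ t ∈ s, c t • dl t)) := by
  have h1 : ∀ y : Λ, Wr V y (dl a) = lam a (V y⁻¹ (dl 1)) := by
    intro y
    rw [dl_eq_lam a, Wr_lam hV, Wr_xi hV]
  have h2 : Wr V v (Wr V x (dl a)) = lam a (V x⁻¹ (V v⁻¹ (dl 1))) := by
    rw [h1, Wr_lam hV, ← VW_apply hV, Wr_xi hV]
  have h3 : ∀ t : Γ, rho t⁻¹ (Wr V x (dl a)) = lam a (V x⁻¹ (dl t)) := by
    intro t
    rw [h1, dl_eq_rho t, V_lamrho hV, ← mul_ap, ← mul_ap, ← mul_ap, rho_lam]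
    rfl
  rw [h2, map_sub, map_sub, map_sum, map_sum]
  congr 1
  refine Finset.sum_congr rfl fun t _ => ?_
  rw [map_smul, map_smul, h3]

theorem V_norm (v : Λ) (ξ : Ell2 Γ) : ‖V v ξ‖ = ‖ξ‖ := hV.reg.norm_map v ξ

/-- Commutation with right multiplications. -/
theorem pl_comm (hF : ∀ k g, |F k g| ≤ C) (v : Λ) (hv : ∀ k, z k * v = v * z k)
    (h : ∀ t : Γ, Small U V z (fun k g => F k (g * t) - F k g)) :
    PiL U V z F * Wr V v = Wr V v * PiL U V z F := by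
  have hC : 0 ≤ C := (abs_nonneg _).trans (hF 0 1)
  apply op_ext
  intro a
  refine ext_inner_dl fun b => ?_
  rw [← inner_dl, ← inner_dl, mul_ap, mul_ap]
  have hR : ⟪(dl b : Ell2 Γ), Wr V v (PiL U V z F (dl a))⟫_ℂ =
      ⟪Wr V v⁻¹ (dl b), PiL U V z F (dl a)⟫_ℂ := (regRep_W hV).inner_right v _ _
  rw [hR]
  have hl1 := pl_spec (U := U) (z := z) hV hF (dl b) (Wr V v (dl a))
  have hl2 := pl_spec (U := U) (z := z) hV hF (Wr V v⁻¹ (dl b)) (dl a)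
  have hd := hl1.sub hl2
  suffices hz : Tendsto (fun k => ⟪Wr V (z k) (dl b), mo (F k) (Wr V (z k) (Wr V v (dl a)))⟫_ℂ -
      ⟪Wr V (z k) (Wr V v⁻¹ (dl b)), mo (F k) (Wr V (z k) (dl a))⟫_ℂ) U (𝓝 0) by
    exact sub_eq_zero.mp (tendsto_nhds_unique hd hz)
  rw [Metric.tendsto_nhds]
  intro ε hε
  -- a finitely supported approximation of `V v⁻¹ δ_e`
  have h5 := hasSum_dl (V v⁻¹ (dl 1))
  obtain ⟨δ, hδ0, hδ⟩ : ∃ δ : ℝ, 0 < δ ∧ 2 * C * δ < ε / 2 := by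
    refine ⟨ε / (4 * (C + 1)), by positivity, ?_⟩
    rw [mul_div_assoc', div_lt_iff₀ (by positivity)]
    nlinarith
  obtain ⟨s, hs⟩ := (h5.eventually (Metric.ball_mem_nhds _ hδ0)).exists
  obtain ⟨c, hc⟩ : ∃ c : Γ → ℂ, c = fun t => V v⁻¹ (dl 1) t := ⟨_, rfl⟩
  have hs1 : ‖V v⁻¹ (dl 1) - ∑ t ∈ s, c t • (dl t : Ell2 Γ)‖ ≤ δ := by
    rw [← dist_eq_norm, dist_comm, hc]
    exact (show dist _ _ < δ from hs).le
  have hcomm : ∀ k (ξ : Ell2 Γ), Wr V (z k) (Wr V v ξ) = Wr V v (Wr V (z k) ξ) := by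
    intro k ξ
    rw [← mul_ap, ← mul_ap, ← map_mul, ← map_mul, hv]
  have hcomm' : ∀ k (ξ : Ell2 Γ), Wr V (z k) (Wr V v⁻¹ ξ) = Wr V v⁻¹ (Wr V (z k) ξ) := by
    intro k ξ
    have : z k * v⁻¹ = v⁻¹ * z k := by
      rw [eq_inv_mul_iff_mul_eq, ← mul_assoc, ← hv k, mul_assoc, mul_inv_cancel, mul_one]
    rw [← mul_ap, ← mul_ap, ← map_mul, ← map_mul, this]
  -- first approximation
  have hA : ∀ k, ‖Wr V v (Wr V (z k) (dl a)) - ∑ t ∈ s, c t • rho t⁻¹ (Wr V (z k) (dl a))‖ ≤ δ := by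
    intro k
    rw [W_approx hV, norm_lam, V_norm hV]
    exact hs1
  -- second approximation
  have hB : ∀ k, ‖Wr V v⁻¹ (Wr V (z k) (dl b)) -
      ∑ t ∈ s, (starRingEnd ℂ) (c t) • rho t (Wr V (z k) (dl b))‖ ≤ δ := by
    intro k
    classical
    have e1 : ∑ t ∈ s, (starRingEnd ℂ) (c t) • rho t (Wr V (z k) (dl b)) =
        ∑ t ∈ s.image (fun t => t⁻¹), (starRingEnd ℂ) (c t⁻¹) • rho t⁻¹ (Wr V (z k) (dl b)) := by
      rw [Finset.sum_image (fun x _ y _ h => inv_injective h)]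
      refine Finset.sum_congr rfl fun t _ => ?_
      rw [inv_inv]
    rw [e1, W_approx hV, norm_lam, V_norm hV, inv_inv]
    have e2 : jj (V v⁻¹ (dl 1) - ∑ t ∈ s, c t • (dl t : Ell2 Γ)) = V v (dl 1) -
        ∑ t ∈ s.image (fun t => t⁻¹), (starRingEnd ℂ) (c t⁻¹) • dl t := by
      rw [map_sub, jj_V hV, inv_inv, map_sum, Finset.sum_image (fun x _ y _ h => inv_injective h)]
      congr 1
      refine Finset.sum_congr rfl fun t _ => ?_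
      rw [jj_smul, jj_dl, inv_inv]
    rw [← e2, norm_jj]
    exact hs1
  -- the commutators of the finite sums
  have hCm : Tendsto (fun k => ∑ t ∈ s, ‖c t‖ *
      ‖mo (fun g => F k (g * t) - F k g) (Wr V (z k) (dl a))‖) U (𝓝 0) := by
    have := tendsto_finsetSum s fun t _ => ((h t) (dl a)).const_mul ‖c t‖
    simpa using this
  filter_upwards [(Metric.tendsto_nhds.mp hCm) (ε / 2) (by positivity)] with k hk
  rw [dist_zero_right] at hk ⊢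
  rw [Real.norm_of_nonneg (Finset.sum_nonneg fun t _ => by positivity)] at hk
  obtain ⟨η, hη⟩ : ∃ η, η = Wr V (z k) (dl a) := ⟨_, rfl⟩
  obtain ⟨ζ, hζ⟩ : ∃ ζ, ζ = Wr V (z k) (dl b) := ⟨_, rfl⟩
  have hη1 : ‖η‖ = 1 := by rw [hη, norm_W hV, norm_dl]
  have hζ1 : ‖ζ‖ = 1 := by rw [hζ, norm_W hV, norm_dl]
  have hA' := hA k
  have hB' := hB k
  rw [hcomm, hcomm', ← hη, ← hζ]
  rw [← hη] at hA' hk
  rw [← hζ] at hB'
  obtain ⟨p, hp⟩ : ∃ p, p = Wr V v η - ∑ t ∈ s, c t • rho t⁻¹ η := ⟨_, rfl⟩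
  obtain ⟨q, hq⟩ : ∃ q, q = Wr V v⁻¹ ζ - ∑ t ∈ s, (starRingEnd ℂ) (c t) • rho t ζ := ⟨_, rfl⟩
  rw [← hp] at hA'
  rw [← hq] at hB'
  have hp' : Wr V v η = p + ∑ t ∈ s, c t • rho t⁻¹ η := by rw [hp]; abel
  have hq' : Wr V v⁻¹ ζ = q + ∑ t ∈ s, (starRingEnd ℂ) (c t) • rho t ζ := by rw [hq]; abel
  have hkey : ⟪ζ, mo (F k) (Wr V v η)⟫_ℂ - ⟪Wr V v⁻¹ ζ, mo (F k) η⟫_ℂ =
      ⟪ζ, mo (F k) p⟫_ℂ - ⟪q, mo (F k) η⟫_ℂ +
      ∑ t ∈ s, c t * ⟪ζ, rho t⁻¹ (mo (fun g => F k (g * t) - F k g) η)⟫_ℂ := by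
    rw [hp', hq', map_add, inner_add_right, inner_add_left, map_sum, inner_sum, sum_inner]
    have e3 : ∑ t ∈ s, ⟪ζ, mo (F k) (c t • rho t⁻¹ η)⟫_ℂ -
        ∑ t ∈ s, ⟪(starRingEnd ℂ) (c t) • rho t ζ, mo (F k) η⟫_ℂ =
        ∑ t ∈ s, c t * ⟪ζ, rho t⁻¹ (mo (fun g => F k (g * t) - F k g) η)⟫_ℂ := by
      rw [← Finset.sum_sub_distrib]
      refine Finset.sum_congr rfl fun t _ => ?_
      rw [map_smul, inner_smul_right, inner_smul_left, Complex.conj_conj, ← mul_sub]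
      congr 1
      have e4 : ⟪rho t ζ, mo (F k) η⟫_ℂ = ⟪ζ, rho t⁻¹ (mo (F k) η)⟫_ℂ := by
        rw [← adjoint_rho, adjoint_inner_right]
      have e5 : mo (F k) (rho t⁻¹ η) = rho t⁻¹ (mo (fun g => F k (g * t)) η) := by
        rw [rho_mo (F := fun g => F k (g * t)) (C := C) (fun g => hF k _)]
        congr 2
        funext g
        rw [inv_mul_cancel_right]
      rw [e4, e5, ← inner_sub_right, ← map_sub,
        mo_sub (F := fun g => F k (g * t)) (C := C) (fun g => hF k _) (hF k)]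
    linear_combination e3
  rw [hkey]
  have b1 : ‖⟪ζ, mo (F k) p⟫_ℂ‖ ≤ C * δ := by
    refine (norm_inner_le_norm _ _).trans ?_
    rw [hζ1, one_mul]
    refine (norm_mo_le (hF k) _).trans ?_
    gcongr
  have b2 : ‖⟪q, mo (F k) η⟫_ℂ‖ ≤ C * δ := by
    refine (norm_inner_le_norm _ _).trans ?_
    have := norm_mo_le (hF k) η
    rw [hη1, mul_one] at this
    calc ‖q‖ * ‖mo (F k) η‖ ≤ δ * C := by gcongr
      _ = C * δ := mul_comm _ _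
  have b3 : ‖∑ t ∈ s, c t * ⟪ζ, rho t⁻¹ (mo (fun g => F k (g * t) - F k g) η)⟫_ℂ‖ ≤
      ∑ t ∈ s, ‖c t‖ * ‖mo (fun g => F k (g * t) - F k g) η‖ := by
    refine (norm_sum_le _ _).trans (Finset.sum_le_sum fun t _ => ?_)
    rw [norm_mul]
    gcongr
    refine (norm_inner_le_norm _ _).trans ?_
    rw [hζ1, one_mul, norm_rho]
  calc _ ≤ ‖⟪ζ, mo (F k) p⟫_ℂ - ⟪q, mo (F k) η⟫_ℂ‖ +
        ‖∑ t ∈ s, c t * ⟪ζ, rho t⁻¹ (mo (fun g => F k (g * t) - F k g) η)⟫_ℂ‖ := norm_add_le _ _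
    _ ≤ (C * δ + C * δ) + ∑ t ∈ s, ‖c t‖ * ‖mo (fun g => F k (g * t) - F k g) η‖ := by
        refine add_le_add ((norm_sub_le _ _).trans (add_le_add b1 b2)) b3
    _ < ε := by linarith

end

end Vale.Agent.P092.H553
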