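import Vale.Agent.P092.H553.Setup

/-!
P092 (helper553): multiplication operators on `ℓ²(X)`, weak limits along an ultrafilter.
-/

set_option linter.all false

open scoped InnerProductSpace
open Filter Topology ContinuousLinearMap

namespace Vale.Agent.P092.H553

open Vale.Agent.P092.H160

section mo

variable {X : Type}

theorem memlp_mo {F : X → ℝ} {C : ℝ} (hF : ∀ x, |F x| ≤ C) (ξ : Ell2 X) :
    Memℓp (fun x => ((F x : ℝ) : ℂ) * ξ x) 2 := by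
  refine memlp_of_summable ?_
  refine Summable.of_nonneg_of_le (fun x => by positivity) (fun x => ?_)
    ((summable_sq ξ).mul_left (C ^ 2))
  rw [norm_mul, mul_pow, Complex.norm_real, Real.norm_eq_abs]
  have := hF x
  have h0 := abs_nonneg (F x)
  gcongr

theorem norm_mk_mo_le {F : X → ℝ} {C : ℝ} (hF : ∀ x, |F x| ≤ C) (ξ : Ell2 X) :
    ‖(⟨fun x => ((F x : ℝ) : ℂ) * ξ x, memlp_mo hF ξ⟩ : Ell2 X)‖ ≤ |C| * ‖ξ‖ := by
  refine abs_le_of_sq_le_sq' ?_ (by positivity) |>.2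
  rw [norm_sq, mul_pow, norm_sq ξ, sq_abs, ← tsum_mul_left]
  refine Summable.tsum_le_tsum (fun x => ?_) ?_ ((summable_sq ξ).mul_left (C ^ 2))
  · change ‖((F x : ℝ) : ℂ) * ξ x‖ ^ 2 ≤ _
    rw [norm_mul, mul_pow, Complex.norm_real, Real.norm_eq_abs]
    have := hF x
    have h0 := abs_nonneg (F x)
    gcongr
  · exact summable_sq (⟨fun x => ((F x : ℝ) : ℂ) * ξ x, memlp_mo hF ξ⟩ : Ell2 X)

open Classical in
/-- Multiplication by a bounded real function. -/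
noncomputable def mo (F : X → ℝ) : Ell2 X →L[ℂ] Ell2 X :=
  if h : ∃ C, ∀ x, |F x| ≤ C then
    LinearMap.mkContinuous
      { toFun := fun ξ => ⟨fun x => ((F x : ℝ) : ℂ) * ξ x, memlp_mo h.choose_spec ξ⟩
        map_add' := fun ξ η => by
          ext x
          change ((F x : ℝ) : ℂ) * (ξ x + η x) = ((F x : ℝ) : ℂ) * ξ x + ((F x : ℝ) : ℂ) * η x
          ring
        map_smul' := fun c ξ => by
          ext x
          change ((F x : ℝ) : ℂ) * (c * ξ x) = c * (((F x : ℝ) : ℂ) * ξ x)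
          ring }
      |h.choose| (fun ξ => norm_mk_mo_le h.choose_spec ξ)
  else 0

variable {F G : X → ℝ} {C D : ℝ}

theorem mo_apply (hF : ∀ x, |F x| ≤ C) (ξ : Ell2 X) (x : X) : mo F ξ x = (F x : ℂ) * ξ x := by
  have h : ∃ C, ∀ x, |F x| ≤ C := ⟨C, hF⟩
  rw [mo, dif_pos h]
  rfl

theorem norm_mo_le (hF : ∀ x, |F x| ≤ C) (ξ : Ell2 X) : ‖mo F ξ‖ ≤ C * ‖ξ‖ := by
  by_cases hX : Nonempty X
  · obtain ⟨x0⟩ := hX
    have hC : 0 ≤ C := (abs_nonneg _).trans (hF x0)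
    have h1 : mo F ξ = ⟨fun x => ((F x : ℝ) : ℂ) * ξ x, memlp_mo hF ξ⟩ := by
      ext x
      exact mo_apply hF ξ x
    rw [h1]
    refine (norm_mk_mo_le hF ξ).trans ?_
    rw [abs_of_nonneg hC]
  · have h0 : ∀ η : Ell2 X, η = 0 := fun η => by
      ext x
      exact absurd ⟨x⟩ hX
    rw [h0 (mo F ξ), h0 ξ]
    simp

theorem opNorm_mo_le (hF : ∀ x, |F x| ≤ C) (hC : 0 ≤ C) : ‖mo F‖ ≤ C :=
  ContinuousLinearMap.opNorm_le_bound _ hC (norm_mo_le hF)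

theorem inner_mo_left (hF : ∀ x, |F x| ≤ C) (ξ η : Ell2 X) : ⟪mo F ξ, η⟫_ℂ = ⟪ξ, mo F η⟫_ℂ := by
  rw [inner_eq, inner_eq]
  refine tsum_congr fun x => ?_
  rw [mo_apply hF, mo_apply hF, map_mul, Complex.conj_ofReal]
  ring

theorem adjoint_mo (hF : ∀ x, |F x| ≤ C) : adjoint (mo F) = mo F := by
  rw [eq_comm, ContinuousLinearMap.eq_adjoint_iff]
  exact inner_mo_left hF

theorem inner_mo (hF : ∀ x, |F x| ≤ C) (ξ : Ell2 X) :
    ⟪ξ, mo F ξ⟫_ℂ = ((∑' x, F x * ‖ξ x‖ ^ 2 : ℝ) : ℂ) := by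
  rw [inner_eq, Complex.ofReal_tsum]
  refine tsum_congr fun x => ?_
  rw [mo_apply hF, mul_assoc, Complex.mul_conj, Complex.normSq_eq_norm_sq]
  push_cast
  ring

theorem summable_mo (hF : ∀ x, |F x| ≤ C) (ξ : Ell2 X) :
    Summable fun x => F x * ‖ξ x‖ ^ 2 := by
  refine Summable.of_norm_bounded ((summable_sq ξ).mul_left C) fun x => ?_
  rw [norm_mul, Real.norm_eq_abs, Real.norm_of_nonneg (by positivity : 0 ≤ ‖ξ x‖ ^ 2)]
  have := hF x
  gcongr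

theorem mo_add (hF : ∀ x, |F x| ≤ C) (hG : ∀ x, |G x| ≤ D) (ξ : Ell2 X) :
    mo (fun x => F x + G x) ξ = mo F ξ + mo G ξ := by
  ext x
  have h : ∀ x, |F x + G x| ≤ C + D := fun x =>
    (abs_add_le _ _).trans (add_le_add (hF x) (hG x))
  rw [mo_apply h, lp.coeFn_add, Pi.add_apply, mo_apply hF, mo_apply hG]
  push_cast
  ring

theorem mo_sub (hF : ∀ x, |F x| ≤ C) (hG : ∀ x, |G x| ≤ D) (ξ : Ell2 X) :
    mo (fun x => F x - G x) ξ = mo F ξ - mo G ξ := by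
  ext x
  have h : ∀ x, |F x - G x| ≤ C + D := fun x =>
    (abs_sub _ _).trans (add_le_add (hF x) (hG x))
  rw [mo_apply h, lp.coeFn_sub, Pi.sub_apply, mo_apply hF, mo_apply hG]
  push_cast
  ring

theorem mo_smul (c : ℝ) (hF : ∀ x, |F x| ≤ C) (ξ : Ell2 X) :
    mo (fun x => c * F x) ξ = (c : ℂ) • mo F ξ := by
  ext x
  have h : ∀ x, |c * F x| ≤ |c| * C := fun x => by
    rw [abs_mul]
    have := hF x
    gcongr
  rw [mo_apply h, lp.coeFn_smul, Pi.smul_apply, mo_apply hF, smul_eq_mul]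
  push_cast
  ring

theorem mo_mul (hF : ∀ x, |F x| ≤ C) (hG : ∀ x, |G x| ≤ D) (ξ : Ell2 X) :
    mo (fun x => F x * G x) ξ = mo F (mo G ξ) := by
  ext x
  have h : ∀ x, |F x * G x| ≤ C * D := fun x => by
    rw [abs_mul]
    have h1 := hF x
    have h2 := hG x
    have h3 := abs_nonneg (F x)
    have h4 := abs_nonneg (G x)
    have h5 : 0 ≤ C := h3.trans h1
    gcongr
  rw [mo_apply h, mo_apply hF, mo_apply hG]
  push_cast
  ring

theorem mo_one (ξ : Ell2 X) : mo (fun _ => (1 : ℝ)) ξ = ξ := by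
  ext x
  rw [mo_apply (C := 1) (fun x => by simp)]
  simp

theorem norm_mo_sq (hF : ∀ x, |F x| ≤ C) (ξ : Ell2 X) :
    ‖mo F ξ‖ ^ 2 = ∑' x, F x ^ 2 * ‖ξ x‖ ^ 2 := by
  rw [norm_sq]
  refine tsum_congr fun x => ?_
  rw [mo_apply hF, norm_mul, mul_pow, Complex.norm_real, Real.norm_eq_abs, sq_abs]

theorem norm_mo_le_mo (hF : ∀ x, |F x| ≤ C) (hG : ∀ x, |G x| ≤ D) (h : ∀ x, |F x| ≤ |G x|)
    (ξ : Ell2 X) : ‖mo F ξ‖ ≤ ‖mo G ξ‖ := by
  refine abs_le_of_sq_le_sq' ?_ (norm_nonneg _) |>.2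
  rw [norm_mo_sq hF, norm_mo_sq hG]
  refine Summable.tsum_le_tsum (fun x => ?_) ?_ ?_
  · have h1 := sq_le_sq.mpr (h x)
    gcongr
  · refine (summable_sq (mo F ξ)).congr fun x => ?_
    rw [mo_apply hF, norm_mul, mul_pow, Complex.norm_real, Real.norm_eq_abs, sq_abs]
  · refine (summable_sq (mo G ξ)).congr fun x => ?_
    rw [mo_apply hG, norm_mul, mul_pow, Complex.norm_real, Real.norm_eq_abs, sq_abs]

theorem inner_mo_re_mono (hF : ∀ x, |F x| ≤ C) (hG : ∀ x, |G x| ≤ D) (h : ∀ x, F x ≤ G x)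
    (ξ : Ell2 X) : (⟪ξ, mo F ξ⟫_ℂ).re ≤ (⟪ξ, mo G ξ⟫_ℂ).re := by
  rw [inner_mo hF, inner_mo hG, Complex.ofReal_re, Complex.ofReal_re]
  refine Summable.tsum_le_tsum (fun x => ?_) (summable_mo hF ξ) (summable_mo hG ξ)
  have h1 := h x
  gcongr

end mo

section grp

variable {G : Type} [Group G] {F : G → ℝ} {C : ℝ}

theorem lam_mo (hF : ∀ x, |F x| ≤ C) (s : G) (ξ : Ell2 G) :
    lam s (mo F ξ) = mo (fun g => F (s⁻¹ * g)) (lam s ξ) := by
  ext g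
  rw [lam_apply, mo_apply hF, mo_apply (F := fun g => F (s⁻¹ * g)) (fun g => hF _), lam_apply]

theorem rho_mo (hF : ∀ x, |F x| ≤ C) (t : G) (ξ : Ell2 G) :
    rho t (mo F ξ) = mo (fun g => F (g * t)) (rho t ξ) := by
  ext g
  rw [rho_apply, mo_apply hF, mo_apply (F := fun g => F (g * t)) (fun g => hF _), rho_apply]

theorem jj_mo (hF : ∀ x, |F x| ≤ C) (ξ : Ell2 G) :
    jj (mo F ξ) = mo (fun g => F g⁻¹) (jj ξ) := by
  ext g
  rw [jj_apply, mo_apply hF, mo_apply (F := fun g => F g⁻¹) (fun g => hF _), jj_apply, map_mul,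
    Complex.conj_ofReal]

end grp

/-! ### Weak limits -/

section wl

variable {H : Type} [NormedAddCommGroup H] [InnerProductSpace ℂ H] [CompleteSpace H]

open Classical in
/-- The weak operator limit along an ultrafilter of a bounded sequence. -/
noncomputable def wl (U : Ultrafilter ℕ) (T : ℕ → (H →L[ℂ] H)) : H →L[ℂ] H :=
  if h : ∃ R : ℝ, (∀ i, ‖T i‖ ≤ R) ∧ 0 ≤ R then
    (H108.exists_wot_limit U T h.choose h.choose_spec.1 h.choose_spec.2).choose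
  else 0

theorem wl_spec (U : Ultrafilter ℕ) {T : ℕ → (H →L[ℂ] H)} {R : ℝ} (hT : ∀ i, ‖T i‖ ≤ R)
    (ξ η : H) : Tendsto (fun i => ⟪ξ, T i η⟫_ℂ) U (𝓝 ⟪ξ, wl U T η⟫_ℂ) := by
  have h : ∃ R : ℝ, (∀ i, ‖T i‖ ≤ R) ∧ 0 ≤ R := ⟨R, hT, (norm_nonneg _).trans (hT 0)⟩
  rw [wl, dif_pos h]
  exact (H108.exists_wot_limit U T h.choose h.choose_spec.1 h.choose_spec.2).choose_spec.2 ξ η

theorem op_ext_inner {S T : H →L[ℂ] H} (h : ∀ ξ η : H, ⟪ξ, S η⟫_ℂ = ⟪ξ, T η⟫_ℂ) : S = T := by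
  ext η
  exact ext_inner_left ℂ fun ξ => h ξ η

end wl

end Vale.Agent.P092.H553
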