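import Mathlib

/-!
P092 (helper553): real valued functions on `SL_3(ℤ)` attached to `g ↦ ‖g‖_HS`, `‖g⁻¹‖_HS`.
-/

namespace Vale.Agent.P092.H553

/-- `SL_3(ℤ)`. -/
abbrev G3 : Type := Matrix.SpecialLinearGroup (Fin 3) ℤ

/-- Entries of `g` as real numbers. -/
def en (g : G3) (i j : Fin 3) : ℝ := ((g : Matrix (Fin 3) (Fin 3) ℤ) i j : ℝ)

/-- The real matrix of `g`. -/
def rm (g : G3) : Matrix (Fin 3) (Fin 3) ℝ := fun i j => en g i j

/-- Square of the Hilbert-Schmidt norm. -/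
def hs (m : Matrix (Fin 3) (Fin 3) ℝ) : ℝ := ∑ i, ∑ j, m i j ^ 2

/-- `A(g) = ‖g‖²`. -/
def rA (g : G3) : ℝ := hs (rm g)

/-- `B(g) = ‖g⁻¹‖²`. -/
def rB (g : G3) : ℝ := hs (rm g⁻¹)

/-- `G12(g) = A² / B` (square of the first singular value gap, up to constants). -/
noncomputable def G12 (g : G3) : ℝ := rA g ^ 2 / rB g

/-- `G23(g) = B² / A`. -/
noncomputable def G23 (g : G3) : ℝ := rB g ^ 2 / rA g

/-- The regular region. -/
def Reg (R : ℝ) (g : G3) : Prop := R ≤ G12 g ∧ R ≤ G23 g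

/-- `N(g) = g gᵀ / A(g)` (positive semidefinite of trace one). -/
noncomputable def NN (g : G3) : Matrix (Fin 3) (Fin 3) ℝ :=
  (rA g)⁻¹ • (rm g * (rm g).transpose)

/-- `N*(g) = g⁻ᵀ g⁻¹ / B(g)` (positive semidefinite of trace one). -/
noncomputable def NS (g : G3) : Matrix (Fin 3) (Fin 3) ℝ :=
  (rB g)⁻¹ • ((rm g⁻¹).transpose * rm g⁻¹)

end Vale.Agent.P092.H553
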