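import Vale.Agent.P092.H156.FO
import Vale.Agent.P092.PA.Defs
import Vale.Agent.P092.H76.Form

/-!
P092 (helper553), team A, block [GLUE] part (C): the field
`T x = ∫ φ(x, y) b(y)* d(y) dy` over the place 1, for smooth fields `b`, `d` at the place 2 and a
bounded continuous function `φ` on `G₁ × G₂` invariant under the diagonal action of `Γ`.
-/

set_option linter.all false

open MeasureTheory Filter Topology ContinuousLinearMap
open scoped InnerProductSpace ENNReal ComplexConjugate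

namespace Vale.Agent.P092.H553.TF

open Vale.Agent.P092.H160 (RegRep Cmm mul_ap)
open Vale.Agent.P092.H156
open Vale.Agent.P092.PA

section form

variable {G K : Type} [MeasurableSpace G] [NormedAddCommGroup K] [InnerProductSpace ℂ K]
  [CompleteSpace K] {μ : Measure G} {b d : G → K →L[ℂ] K} {φ : G → ℂ}

/-- `b` is bounded as a map `K → L²(G; K)`. -/
structure W (μ : Measure G) (b : G → K →L[ℂ] K) (B : ℝ) : Prop where
  nonneg : 0 ≤ B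
  mem : ∀ ζ, MemLp (fun y => b y ζ) 2 μ
  bound : ∀ ζ, ‖(mem ζ).toLp _‖ ≤ B * ‖ζ‖

/-- multiplication by a bounded function in `L²` -/
theorem memLp_smul {f : G → K} (hφ : AEStronglyMeasurable φ μ) {C : ℝ} (hC : ∀ y, ‖φ y‖ ≤ C)
    (hf : MemLp f 2 μ) : MemLp (fun y => φ y • f y) 2 μ := by
  refine MemLp.of_le_mul (c := C) hf (hφ.smul hf.1) (Eventually.of_forall fun y => ?_)
  rw [norm_smul]
  exact mul_le_mul_of_nonneg_right (hC y) (norm_nonneg _)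

theorem norm_toLp_smul_le {f : G → K} (hφ : AEStronglyMeasurable φ μ) {C : ℝ}
    (hC : ∀ y, ‖φ y‖ ≤ C) (hf : MemLp f 2 μ) :
    ‖(memLp_smul hφ hC hf).toLp _‖ ≤ C * ‖hf.toLp f‖ := by
  refine Lp.norm_le_mul_norm_of_ae_le_mul ?_
  filter_upwards [(memLp_smul hφ hC hf).coeFn_toLp, hf.coeFn_toLp] with y h1 h2
  rw [h1, h2, norm_smul]
  exact mul_le_mul_of_nonneg_right (hC y) (norm_nonneg _)

theorem integrable_form {f g : G → K} (hφ : AEStronglyMeasurable φ μ) {C : ℝ}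
    (hC : ∀ y, ‖φ y‖ ≤ C) (hf : MemLp f 2 μ) (hg : MemLp g 2 μ) :
    Integrable (fun y => φ y * ⟪f y, g y⟫_ℂ) μ := by
  have h1 := Sm.integrable_inner_of_memLp hf (memLp_smul hφ hC hg)
  refine h1.congr (Eventually.of_forall fun y => ?_)
  simp only [inner_smul_right]

theorem norm_form_le {f g : G → K} (hφ : AEStronglyMeasurable φ μ) {C : ℝ}
    (hC : ∀ y, ‖φ y‖ ≤ C) (hf : MemLp f 2 μ) (hg : MemLp g 2 μ) (hC0 : 0 ≤ C) :
    ‖∫ y, φ y * ⟪f y, g y⟫_ℂ ∂μ‖ ≤ C * (‖hf.toLp f‖ * ‖hg.toLp g‖) := by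
  have h1 : ∫ y, φ y * ⟪f y, g y⟫_ℂ ∂μ = ∫ y, ⟪f y, φ y • g y⟫_ℂ ∂μ := by
    refine integral_congr_ae (Eventually.of_forall fun y => ?_)
    simp only [inner_smul_right]
  rw [h1]
  refine (Sm.norm_integral_inner_le hf (memLp_smul hφ hC hg)).trans ?_
  calc ‖hf.toLp f‖ * ‖(memLp_smul hφ hC hg).toLp _‖ ≤ ‖hf.toLp f‖ * (C * ‖hg.toLp g‖) := by
        gcongr
        exact norm_toLp_smul_le hφ hC hg
    _ = C * (‖hf.toLp f‖ * ‖hg.toLp g‖) := by ring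

theorem W.form_le {B B' : ℝ} (hb : W μ b B) (hd : W μ d B') (hφ : AEStronglyMeasurable φ μ) {C : ℝ}
    (hC : ∀ y, ‖φ y‖ ≤ C) (hC0 : 0 ≤ C) (ζ η : K) :
    ‖∫ y, φ y * ⟪b y ζ, d y η⟫_ℂ ∂μ‖ ≤ C * B * B' * ‖ζ‖ * ‖η‖ := by
  refine (norm_form_le hφ hC (hb.mem ζ) (hd.mem η) hC0).trans ?_
  have h1 := hb.bound ζ
  have h2 := hd.bound η
  have h3 : 0 ≤ B * ‖ζ‖ := mul_nonneg hb.nonneg (norm_nonneg _)
  calc C * (‖(hb.mem ζ).toLp _‖ * ‖(hd.mem η).toLp _‖) ≤ C * ((B * ‖ζ‖) * (B' * ‖η‖)) := by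
        gcongr
    _ = C * B * B' * ‖ζ‖ * ‖η‖ := by ring

/-- An operator is bounded by the bound of its form. -/
theorem opNorm_le_of_form {S : K →L[ℂ] K} {M : ℝ} (hM : 0 ≤ M)
    (h : ∀ ζ η, ‖⟪ζ, S η⟫_ℂ‖ ≤ M * ‖ζ‖ * ‖η‖) : ‖S‖ ≤ M := by
  refine ContinuousLinearMap.opNorm_le_bound _ hM fun η => ?_
  have h1 := h (S η) η
  have h2 : ‖⟪S η, S η⟫_ℂ‖ = ‖S η‖ * ‖S η‖ := by
    rw [inner_self_eq_norm_sq_to_K, norm_pow, RCLike.norm_ofReal, abs_norm, sq]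
  rw [h2] at h1
  by_cases h0 : ‖S η‖ = 0
  · rw [h0]; positivity
  · have h3 : 0 < ‖S η‖ := lt_of_le_of_ne (norm_nonneg _) (Ne.symm h0)
    have h4 : ‖S η‖ * ‖S η‖ ≤ ‖S η‖ * (M * ‖η‖) := h1.trans (le_of_eq (by ring))
    exact le_of_mul_le_mul_left h4 h3

theorem ext_form {S T : K →L[ℂ] K} (h : ∀ ζ η, ⟪ζ, S η⟫_ℂ = ⟪ζ, T η⟫_ℂ) : S = T :=
  ContinuousLinearMap.ext fun η => ext_inner_left ℂ fun ζ => h ζ η

/-- The operator of a weighted form exists. -/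
theorem exists_op {B B' : ℝ} (hb : W μ b B) (hd : W μ d B') (hφ : AEStronglyMeasurable φ μ) {C : ℝ}
    (hC : ∀ y, ‖φ y‖ ≤ C) (hC0 : 0 ≤ C) :
    ∃ S : K →L[ℂ] K, ∀ ζ η, ⟪ζ, S η⟫_ℂ = ∫ y, φ y * ⟪b y ζ, d y η⟫_ℂ ∂μ := by
  have hint : ∀ ζ η, Integrable (fun y => φ y * ⟪b y ζ, d y η⟫_ℂ) μ := fun ζ η =>
    integrable_form hφ hC (hb.mem ζ) (hd.mem η)
  have key : ∃ S : K →L[ℂ] K, (∀ ζ η, ⟪(LinearMap.id : K →ₗ[ℂ] K) ζ,
      S ((LinearMap.id : K →ₗ[ℂ] K) η)⟫_ℂ = ∫ y, φ y * ⟪b y ζ, d y η⟫_ℂ ∂μ) ∧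
      (∀ ξ, ξ ∈ (LinearMap.range (LinearMap.id : K →ₗ[ℂ] K))ᗮ → S ξ = 0) ∧
      (∀ η ξ, ξ ∈ (LinearMap.range (LinearMap.id : K →ₗ[ℂ] K))ᗮ → ⟪S η, ξ⟫_ℂ = 0) ∧
      ‖S‖ ≤ C * B * B' := by
    refine H76.exists_form (LinearMap.id : K →ₗ[ℂ] K)
      (fun ζ η => ∫ y, φ y * ⟪b y ζ, d y η⟫_ℂ ∂μ) ?_ ?_ ?_ ?_ (C * B * B')
      (mul_nonneg (mul_nonneg hC0 hb.nonneg) hd.nonneg) ?_
    · intro x y z
      rw [← integral_add (hint _ _) (hint _ _)]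
      refine integral_congr_ae (Eventually.of_forall fun t => ?_)
      simp only [map_add, inner_add_right, mul_add]
    · intro c x y
      rw [← integral_const_mul]
      refine integral_congr_ae (Eventually.of_forall fun t => ?_)
      simp only [map_smul, inner_smul_right]
      ring
    · intro x y z
      rw [← integral_add (hint _ _) (hint _ _)]
      refine integral_congr_ae (Eventually.of_forall fun t => ?_)
      simp only [map_add, inner_add_left, mul_add]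
    · intro c x y
      rw [← integral_const_mul]
      refine integral_congr_ae (Eventually.of_forall fun t => ?_)
      simp only [map_smul, inner_smul_left]
      ring
    · intro x y
      exact hb.form_le hd hφ hC hC0 x y
  obtain ⟨S, hS, -, -, -⟩ := key
  exact ⟨S, fun ζ η => hS ζ η⟩

/-- The operator of a weighted form. -/
noncomputable def op (μ : Measure G) (φ : G → ℂ) (b d : G → K →L[ℂ] K) : K →L[ℂ] K :=
  open Classical in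
  if h : ∃ S : K →L[ℂ] K, ∀ ζ η, ⟪ζ, S η⟫_ℂ = ∫ y, φ y * ⟪b y ζ, d y η⟫_ℂ ∂μ then h.choose else 0

theorem inner_op {B B' : ℝ} (hb : W μ b B) (hd : W μ d B') (hφ : AEStronglyMeasurable φ μ) {C : ℝ}
    (hC : ∀ y, ‖φ y‖ ≤ C) (hC0 : 0 ≤ C) (ζ η : K) :
    ⟪ζ, op μ φ b d η⟫_ℂ = ∫ y, φ y * ⟪b y ζ, d y η⟫_ℂ ∂μ := by
  have h := exists_op hb hd hφ hC hC0
  rw [op, dif_pos h]
  exact h.choose_spec ζ η

theorem norm_op_le {B B' : ℝ} (hb : W μ b B) (hd : W μ d B') (hφ : AEStronglyMeasurable φ μ) {C : ℝ}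
    (hC : ∀ y, ‖φ y‖ ≤ C) (hC0 : 0 ≤ C) : ‖op μ φ b d‖ ≤ C * B * B' := by
  refine opNorm_le_of_form (mul_nonneg (mul_nonneg hC0 hb.nonneg) hd.nonneg) fun ζ η => ?_
  rw [inner_op hb hd hφ hC hC0]
  exact hb.form_le hd hφ hC hC0 ζ η

end form

section place

variable {Γ Λ K G H : Type} [Group Γ] [Countable Γ] [Group Λ] [NormedAddCommGroup K]
  [InnerProductSpace ℂ K] [CompleteSpace K]
  [Group G] [TopologicalSpace G] [IsTopologicalGroup G] [SecondCountableTopology G]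
  [MeasurableSpace G] [BorelSpace G]
  [Group H] [TopologicalSpace H] [IsTopologicalGroup H]
  {D : Pic Γ Λ K} {p : Γ →* G} {q : Λ →* H} {μ : Measure G} {b : G → K →L[ℂ] K}

/-- Smooth fields are bounded `K → L²(G; K)` with the constant `|b|₂`. -/
theorem w_of_smo (hF : F1 D p q μ) (hb : Smo D p q μ b) :
    W μ b (Real.sqrt (Sm.nsq D.Ω μ b).toReal) where
  nonneg := Real.sqrt_nonneg _
  mem := fun ζ => (hF b b hb hb ζ ζ).1
  bound := fun ζ => by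
    have h1 := (hF b b hb hb ζ ζ).2
    have h2 := (hF b b hb hb ζ ζ).1
    rw [Sm.integral_inner_toLp h2 h2, Sm.ip_self hb.l2, inner_self_eq_norm_sq_to_K,
      inner_self_eq_norm_sq_to_K] at h1
    have h3 : ‖h2.toLp _‖ ^ 2 = (Sm.nsq D.Ω μ b).toReal * ‖ζ‖ ^ 2 := by
      apply Complex.ofReal_injective
      push_cast
      exact h1
    refine (pow_le_pow_iff_left₀ (norm_nonneg _)
      (mul_nonneg (Real.sqrt_nonneg _) (norm_nonneg _)) two_ne_zero).1 ?_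
    rw [h3, mul_pow, Real.sq_sqrt ENNReal.toReal_nonneg]

theorem smo_conj [μ.IsMulLeftInvariant] (hb : Smo D p q μ b) (w : Λ) :
    Smo D p q μ (fun x => D.V w * b x * D.V w⁻¹) where
  toFd := Sm.Fd.conj D.frm hb.toFd w
  acont := Sm.ACont.conj D.frm hb.acont w
  l2 := Sm.L2.conj D.frm hb.toFd hb.l2 w

theorem smo_sub {c : G → K →L[ℂ] K} (hb : Smo D p q μ b) (hc : Smo D p q μ c) :
    Smo D p q μ (fun x => b x - c x) where
  toFd := Sm.Fd.sub hb.toFd hc.toFd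
  acont := Sm.ACont.sub hb.acont hc.acont
  l2 := Sm.L2.sub hb.l2 hc.l2

theorem smo_adj [μ.IsMulLeftInvariant] (hb : Smo D p q μ b) :
    Smo D p q μ (fun x => adjoint (b x)) where
  toFd := Sm.Fd.adj D.hρ hb.toFd
  acont := Sm.ACont.adj D.frm hb.acont
  l2 := Sm.L2.adj D.hρ hb.toFd hb.l2

end place

section main

variable {Γ Λ K : Type} [Group Γ] [Countable Γ] [Group Λ] [NormedAddCommGroup K]
  [InnerProductSpace ℂ K] [CompleteSpace K]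
  {G₁ G₂ H₁ H₂ : Type}
  [Group G₁] [TopologicalSpace G₁] [IsTopologicalGroup G₁] [SecondCountableTopology G₁]
  [MeasurableSpace G₁] [BorelSpace G₁]
  [Group G₂] [TopologicalSpace G₂] [IsTopologicalGroup G₂] [SecondCountableTopology G₂]
  [MeasurableSpace G₂] [BorelSpace G₂]
  [Group H₁] [TopologicalSpace H₁] [IsTopologicalGroup H₁]
  [Group H₂] [TopologicalSpace H₂] [IsTopologicalGroup H₂]
  {D : Pic Γ Λ K} {p₁ : Γ →* G₁} {p₂ : Γ →* G₂} {q₁ : Λ →* H₁} {q₂ : Λ →* H₂}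
  {μ₁ : Measure G₁} {μ₂ : Measure G₂}
  {b d : G₂ → K →L[ℂ] K} {φ : G₁ × G₂ → ℂ} {C : ℝ}

/-- The field `T x = ∫ φ(x, y) b(y)* d(y) dy`. -/
noncomputable def T (μ₂ : Measure G₂) (φ : G₁ × G₂ → ℂ) (b d : G₂ → K →L[ℂ] K) (x : G₁) :
    K →L[ℂ] K := op μ₂ (fun y => φ (x, y)) b d

theorem meas_slice (hφ : Continuous φ) (x : G₁) :
    AEStronglyMeasurable (fun y => φ (x, y)) μ₂ :=
  (hφ.comp (Continuous.prodMk_right x)).aestronglyMeasurable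

theorem nonneg_of_bound (hC : ∀ z, ‖φ z‖ ≤ C) : 0 ≤ C := (norm_nonneg _).trans (hC (1, 1))

theorem inner_T (hF : F1 D p₂ q₂ μ₂) (hb : Smo D p₂ q₂ μ₂ b) (hd : Smo D p₂ q₂ μ₂ d)
    (hφ : Continuous φ) (hC : ∀ z, ‖φ z‖ ≤ C) (x : G₁) (ζ η : K) :
    ⟪ζ, T μ₂ φ b d x η⟫_ℂ = ∫ y, φ (x, y) * ⟪b y ζ, d y η⟫_ℂ ∂μ₂ :=
  inner_op (w_of_smo hF hb) (w_of_smo hF hd) (meas_slice hφ x) (fun y => hC (x, y))
    (nonneg_of_bound hC) ζ η

theorem fd_T [μ₂.IsMulLeftInvariant] (hF : F1 D p₂ q₂ μ₂) (hb : Smo D p₂ q₂ μ₂ b)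
    (hd : Smo D p₂ q₂ μ₂ d) (hφ : Continuous φ) (hC : ∀ z, ‖φ z‖ ≤ C)
    (hinv : ∀ γ x y, φ (p₁ γ * x, p₂ γ * y) = φ (x, y))
    (hu : ∀ ε > 0, ∃ U ∈ 𝓝 (1 : G₁), ∀ z ∈ U, ∀ x y, ‖φ (x * z, y) - φ (x, y)‖ ≤ ε) :
    Sm.Fd p₁ D.ρ (T μ₂ φ b d) where
  equiv γ x := by
    refine ext_form fun ζ η => ?_
    rw [inner_T hF hb hd hφ hC, mul_ap, mul_ap, D.hρ.inner_right, inner_T hF hb hd hφ hC,
      ← integral_mul_left_eq_self _ (p₂ γ)]
    refine integral_congr_ae (Eventually.of_forall fun y => ?_)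
    simp only
    rw [hinv, hb.equiv, hd.equiv, mul_ap, mul_ap, mul_ap, mul_ap, D.hρ.inner_map]
  bdd := ⟨_, fun x => norm_op_le (w_of_smo hF hb) (w_of_smo hF hd) (meas_slice hφ x)
    (fun y => hC (x, y)) (nonneg_of_bound hC)⟩
  rcont ε hε := by
    set B := Real.sqrt (Sm.nsq D.Ω μ₂ b).toReal with hB
    set B' := Real.sqrt (Sm.nsq D.Ω μ₂ d).toReal with hB'
    have hb0 : 0 ≤ B := Real.sqrt_nonneg _
    have hd0 : 0 ≤ B' := Real.sqrt_nonneg _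
    obtain ⟨U, hU, h1⟩ := hu (ε / (B * B' + 1)) (by positivity)
    refine ⟨U, hU, fun z hz x => ?_⟩
    have wb := w_of_smo hF hb
    have wd := w_of_smo hF hd
    have h2 : ‖T μ₂ φ b d (x * z) - T μ₂ φ b d x‖ ≤ ε / (B * B' + 1) * B * B' := by
      refine opNorm_le_of_form (by positivity) fun ζ η => ?_
      rw [sub_apply, inner_sub_right, inner_T hF hb hd hφ hC, inner_T hF hb hd hφ hC,
        ← integral_sub (integrable_form (meas_slice hφ (x * z)) (fun y => hC (x * z, y))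
          (wb.mem ζ) (wd.mem η)) (integrable_form (meas_slice hφ x) (fun y => hC (x, y))
          (wb.mem ζ) (wd.mem η))]
      have e : (∫ y, (φ (x * z, y) * ⟪b y ζ, d y η⟫_ℂ - φ (x, y) * ⟪b y ζ, d y η⟫_ℂ) ∂μ₂) =
          ∫ y, (φ (x * z, y) - φ (x, y)) * ⟪b y ζ, d y η⟫_ℂ ∂μ₂ := by
        refine integral_congr_ae (Eventually.of_forall fun y => ?_)
        simp only [sub_mul]
      rw [e]
      exact wb.form_le wd ((meas_slice hφ (x * z)).sub (meas_slice hφ x)) (fun y => h1 z hz x y)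
        (by positivity) ζ η
    refine h2.trans ?_
    calc ε / (B * B' + 1) * B * B' ≤ ε / (B * B' + 1) * (B * B' + 1) := by
          rw [mul_assoc]
          gcongr
          linarith
      _ = ε := by field_simp

theorem acont_T [μ₂.IsMulLeftInvariant] (hF : F1 D p₂ q₂ μ₂) (hb : Smo D p₂ q₂ μ₂ b)
    (hd : Smo D p₂ q₂ μ₂ d) (hφ : Continuous φ) (hC : ∀ z, ‖φ z‖ ≤ C) :
    Sm.ACont q₂ D.V (T μ₂ φ b d) := by
  intro ε hε
  have hC0 := nonneg_of_bound hC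
  set B := Real.sqrt (Sm.nsq D.Ω μ₂ b).toReal with hB
  set B' := Real.sqrt (Sm.nsq D.Ω μ₂ d).toReal with hB'
  have hb0 : 0 ≤ B := Real.sqrt_nonneg _
  have hd0 : 0 ≤ B' := Real.sqrt_nonneg _
  set δ : ℝ := ε / (C * (B + B') + 1) with hδ
  have hδ0 : 0 < δ := by positivity
  obtain ⟨U₁, hU₁, h1⟩ := Sm.conj_cont D.frm hb (δ ^ 2) (by positivity)
  obtain ⟨U₂, hU₂, h2⟩ := Sm.conj_cont D.frm hd (δ ^ 2) (by positivity)
  refine ⟨U₁ ∩ U₂, inter_mem hU₁ hU₂, fun w hw x => ?_⟩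
  have hbw := smo_conj hb w
  have hdw := smo_conj hd w
  have wb := w_of_smo hF hb
  have wd := w_of_smo hF hd
  have wbw := w_of_smo hF hbw
  have wdw := w_of_smo hF hdw
  have wbs := w_of_smo hF (smo_sub hbw hb)
  have wds := w_of_smo hF (smo_sub hdw hd)
  have hm := meas_slice (μ₂ := μ₂) hφ x
  have hx : ∀ y, ‖φ (x, y)‖ ≤ C := fun y => hC (x, y)
  have nb : Real.sqrt (Sm.nsq D.Ω μ₂ (fun y => D.V w * b y * D.V w⁻¹ - b y)).toReal ≤ δ :=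
    Real.sqrt_le_iff.2 ⟨hδ0.le, h1 w hw.1⟩
  have nd : Real.sqrt (Sm.nsq D.Ω μ₂ (fun y => D.V w * d y * D.V w⁻¹ - d y)).toReal ≤ δ :=
    Real.sqrt_le_iff.2 ⟨hδ0.le, h2 w hw.2⟩
  have ndw : Real.sqrt (Sm.nsq D.Ω μ₂ (fun y => D.V w * d y * D.V w⁻¹)).toReal = B' := by
    rw [Sm.nsq_conj D.frm hd.toFd]
  have h3 : ‖D.V w * T μ₂ φ b d x * D.V w⁻¹ - T μ₂ φ b d x‖ ≤ C * δ * B' + C * B * δ := by
    refine opNorm_le_of_form (by positivity) fun ζ η => ?_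
    rw [sub_apply, inner_sub_right, mul_ap, mul_ap, D.hV.inner_right, inner_T hF hb hd hφ hC,
      inner_T hF hb hd hφ hC]
    have e1 : (∫ y, φ (x, y) * ⟪b y (D.V w⁻¹ ζ), d y (D.V w⁻¹ η)⟫_ℂ ∂μ₂) =
        ∫ y, φ (x, y) * ⟪(D.V w * b y * D.V w⁻¹) ζ, (D.V w * d y * D.V w⁻¹) η⟫_ℂ ∂μ₂ := by
      refine integral_congr_ae (Eventually.of_forall fun y => ?_)
      simp only [mul_ap]
      rw [D.hV.inner_map]
    have e2 : (∫ y, φ (x, y) * ⟪(D.V w * b y * D.V w⁻¹) ζ, (D.V w * d y * D.V w⁻¹) η⟫_ℂ ∂μ₂) -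
        (∫ y, φ (x, y) * ⟪b y ζ, d y η⟫_ℂ ∂μ₂) =
        (∫ y, φ (x, y) * ⟪(D.V w * b y * D.V w⁻¹ - b y) ζ, (D.V w * d y * D.V w⁻¹) η⟫_ℂ ∂μ₂) +
        (∫ y, φ (x, y) * ⟪b y ζ, (D.V w * d y * D.V w⁻¹ - d y) η⟫_ℂ ∂μ₂) := by
      rw [← integral_sub (integrable_form hm hx (wbw.mem ζ) (wdw.mem η))
          (integrable_form hm hx (wb.mem ζ) (wd.mem η)),
        ← integral_add (integrable_form hm hx (wbs.mem ζ) (wdw.mem η))
          (integrable_form hm hx (wb.mem ζ) (wds.mem η))]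
      refine integral_congr_ae (Eventually.of_forall fun y => ?_)
      simp only [sub_apply, inner_sub_left, inner_sub_right]
      ring
    rw [e1, e2]
    refine (norm_add_le _ _).trans ?_
    have f1 := wbs.form_le wdw hm hx hC0 ζ η
    have f2 := wb.form_le wds hm hx hC0 ζ η
    rw [ndw] at f1
    have g1 : C * Real.sqrt (Sm.nsq D.Ω μ₂ (fun y => D.V w * b y * D.V w⁻¹ - b y)).toReal * B' *
        ‖ζ‖ * ‖η‖ ≤ C * δ * B' * ‖ζ‖ * ‖η‖ := by gcongr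
    have g2 : C * B * Real.sqrt (Sm.nsq D.Ω μ₂ (fun y => D.V w * d y * D.V w⁻¹ - d y)).toReal *
        ‖ζ‖ * ‖η‖ ≤ C * B * δ * ‖ζ‖ * ‖η‖ := by gcongr
    calc _ ≤ C * δ * B' * ‖ζ‖ * ‖η‖ + C * B * δ * ‖ζ‖ * ‖η‖ :=
          add_le_add (f1.trans g1) (f2.trans g2)
      _ = (C * δ * B' + C * B * δ) * ‖ζ‖ * ‖η‖ := by ring
  refine h3.trans ?_
  calc C * δ * B' + C * B * δ = δ * (C * (B + B')) := by ring
    _ ≤ δ * (C * (B + B') + 1) := by gcongr; linarith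
    _ = ε := by rw [hδ]; field_simp

theorem comm_T [μ₁.IsMulLeftInvariant] [μ₂.IsMulLeftInvariant] (hF : F1 D p₂ q₂ μ₂)
    (hcom : Com D p₁ p₂ q₁ q₂ μ₁ μ₂) (hb : Smo D p₂ q₂ μ₂ b) (hd : Smo D p₂ q₂ μ₂ d)
    (hφ : Continuous φ) (hC : ∀ z, ‖φ z‖ ≤ C) {a : G₁ → K →L[ℂ] K} (ha : Smo D p₁ q₁ μ₁ a)
    (x x' : G₁) : T μ₂ φ b d x * a x' = a x' * T μ₂ φ b d x := by
  refine ext_form fun ζ η => ?_
  rw [mul_ap, mul_ap, inner_T hF hb hd hφ hC, ← adjoint_inner_left, inner_T hF hb hd hφ hC]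
  refine integral_congr_ae (Eventually.of_forall fun y => ?_)
  simp only
  have c1 := hcom _ _ (smo_adj ha) hb x' y
  have c2 := hcom _ _ ha hd x' y
  have e1 : d y (a x' η) = a x' (d y η) := (congrArg (fun S : K →L[ℂ] K => S η) c2).symm
  have e2 : adjoint (a x') (b y ζ) = b y (adjoint (a x') ζ) :=
    congrArg (fun S : K →L[ℂ] K => S ζ) c1
  rw [e1, ← adjoint_inner_left, e2]

/-- The adjoint field also commutes. -/
theorem comm_T_adj [μ₁.IsMulLeftInvariant] [μ₂.IsMulLeftInvariant] (hF : F1 D p₂ q₂ μ₂)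
    (hcom : Com D p₁ p₂ q₁ q₂ μ₁ μ₂) (hb : Smo D p₂ q₂ μ₂ b) (hd : Smo D p₂ q₂ μ₂ d)
    (hφ : Continuous φ) (hC : ∀ z, ‖φ z‖ ≤ C) {a : G₁ → K →L[ℂ] K} (ha : Smo D p₁ q₁ μ₁ a)
    (x x' : G₁) : adjoint (T μ₂ φ b d x) * a x' = a x' * adjoint (T μ₂ φ b d x) := by
  have h1 := comm_T hF hcom hb hd hφ hC (smo_adj ha) x x'
  have h2 := congrArg star h1
  rw [star_mul, star_mul, star_eq_adjoint (adjoint (a x')), adjoint_adjoint,
    star_eq_adjoint] at h2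
  exact h2.symm

/-- [GLUE] (C): the vanishing of the mixed integrals. -/
theorem integral_zero [μ₁.IsMulLeftInvariant] [μ₂.IsMulLeftInvariant] (hF : F1 D p₂ q₂ μ₂)
    (hcom : Com D p₁ p₂ q₁ q₂ μ₁ μ₂) (hout : Out D p₁ q₁ q₂ μ₁)
    (hb : Smo D p₂ q₂ μ₂ b) (hd : Smo D p₂ q₂ μ₂ d)
    (hφ : Continuous φ) (hC : ∀ z, ‖φ z‖ ≤ C)
    (hinv : ∀ γ x y, φ (p₁ γ * x, p₂ γ * y) = φ (x, y))
    (hu : ∀ ε > 0, ∃ U ∈ 𝓝 (1 : G₁), ∀ z ∈ U, ∀ x y, ‖φ (x * z, y) - φ (x, y)‖ ≤ ε)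
    {a c : G₁ → K →L[ℂ] K} (ha : Smo D p₁ q₁ μ₁ a) (hc : Smo D p₁ q₁ μ₁ c) (v : Λ) (hv : v ≠ 1) :
    ∫ x, ∫ y, φ (x, y) * ⟪a x (b y D.Ω), c x (d y (D.V v D.Ω))⟫_ℂ ∂μ₂ ∂μ₁ = 0 := by
  have e1 : ∀ x, ∫ y, φ (x, y) * ⟪a x (b y D.Ω), c x (d y (D.V v D.Ω))⟫_ℂ ∂μ₂ =
      ⟪a x D.Ω, T μ₂ φ b d x (c x (D.V v D.Ω))⟫_ℂ := by
    intro x
    rw [inner_T hF hb hd hφ hC]
    refine integral_congr_ae (Eventually.of_forall fun y => ?_)
    simp only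
    have c1 : a x (b y D.Ω) = b y (a x D.Ω) :=
      congrArg (fun S : K →L[ℂ] K => S D.Ω) (hcom _ _ ha hb x y)
    have c2 : c x (d y (D.V v D.Ω)) = d y (c x (D.V v D.Ω)) :=
      congrArg (fun S : K →L[ℂ] K => S (D.V v D.Ω)) (hcom _ _ hc hd x y)
    rw [c1, c2]
  simp only [e1]
  have hT := fd_T (φ := φ) hF hb hd hφ hC hinv hu
  have h2 := hout (fun x => adjoint (T μ₂ φ b d x)) (hT.adj D.hρ)
    (Sm.ACont.adj D.frm (acont_T hF hb hd hφ hC))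
    (fun a' ha' x => comm_T_adj hF hcom hb hd hφ hC ha' x x) a c ha hc v hv
  have h3 := congrArg conj h2
  rw [← integral_conj, map_zero] at h3
  rw [← h3]
  refine integral_congr_ae (Eventually.of_forall fun x => ?_)
  simp only
  rw [inner_conj_symm, adjoint_inner_left]

end main

end Vale.Agent.P092.H553.TF
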