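import Vale.Agent.P092.H553.Lim

/-!
P092 (helper553): the balance argument `Π_x(H) = Π_y(H)`.
-/

set_option linter.all false

open scoped InnerProductSpace
open Filter Topology ContinuousLinearMap

namespace Vale.Agent.P092.H553

open Vale.Agent.P092.H160

open Classical in
/-- Indicator function. -/
noncomputable def ind {X : Type} (P : X → Prop) : X → ℝ := fun x => if P x then 1 else 0

theorem ind_nonneg {X : Type} (P : X → Prop) (x : X) : 0 ≤ ind P x := by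
  unfold ind; split_ifs <;> norm_num

theorem ind_le_one {X : Type} (P : X → Prop) (x : X) : ind P x ≤ 1 := by
  unfold ind; split_ifs <;> norm_num

theorem abs_ind_le {X : Type} (P : X → Prop) (x : X) : |ind P x| ≤ 1 := by
  rw [abs_of_nonneg (ind_nonneg P x)]; exact ind_le_one P x

theorem ind_pos {X : Type} {P : X → Prop} {x : X} (h : P x) : ind P x = 1 := by
  unfold ind; rw [if_pos h]

theorem ind_neg {X : Type} {P : X → Prop} {x : X} (h : ¬ P x) : ind P x = 0 := by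
  unfold ind; rw [if_neg h]

section cells

variable {X : Type} (N : ℕ) (H : X → ℝ)

/-- The cells `{⌊N H⌋ = i}`. -/
noncomputable def cell (i : ℕ) : X → ℝ := ind fun g => ⌊(N : ℝ) * H g⌋₊ = i

theorem cell_abs (i : ℕ) (x : X) : |cell N H i x| ≤ 1 := abs_ind_le _ _

theorem cell_pos {i : ℕ} {x : X} (h : ⌊(N : ℝ) * H x⌋₊ = i) : cell N H i x = 1 :=
  ind_pos (P := fun g => ⌊(N : ℝ) * H g⌋₊ = i) h

theorem cell_neg {i : ℕ} {x : X} (h : ¬ ⌊(N : ℝ) * H x⌋₊ = i) : cell N H i x = 0 :=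
  ind_neg (P := fun g => ⌊(N : ℝ) * H g⌋₊ = i) h

theorem cell_sum (hH : ∀ g, 0 ≤ H g ∧ H g ≤ 1) (x : X) :
    ∑ i ∈ Finset.range (N + 1), cell N H i x = 1 := by
  have h1 : ⌊(N : ℝ) * H x⌋₊ ∈ Finset.range (N + 1) := by
    rw [Finset.mem_range, Nat.lt_succ_iff]
    refine Nat.floor_le_of_le ?_
    have := hH x
    have hN : (0 : ℝ) ≤ N := Nat.cast_nonneg N
    nlinarith
  rw [Finset.sum_eq_single_of_mem _ h1]
  · exact ind_pos rfl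
  · intro j _ hj
    exact ind_neg fun h => hj h.symm

theorem cell_sq (i : ℕ) (x : X) : cell N H i x ^ 2 = cell N H i x := by
  unfold cell ind; split_ifs <;> norm_num

theorem cell_near (hN : 0 < N) (hH : ∀ g, 0 ≤ H g ∧ H g ≤ 1) (i : ℕ) (x : X) :
    |(H x - i / N) * cell N H i x| ≤ |(1 / N : ℝ) * cell N H i x| := by
  by_cases h : ⌊(N : ℝ) * H x⌋₊ = i
  · rw [cell_pos N H h, mul_one, mul_one]
    have hN' : (0 : ℝ) < N := by exact_mod_cast hN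
    have h0 : 0 ≤ (N : ℝ) * H x := mul_nonneg hN'.le (hH x).1
    have h1 : (i : ℝ) ≤ N * H x := by rw [← h]; exact Nat.floor_le h0
    have h2 : (N : ℝ) * H x < i + 1 := by rw [← h]; exact Nat.lt_floor_add_one _
    have h3 : 0 ≤ H x - i / N := by
      rw [sub_nonneg, div_le_iff₀ hN']; linarith
    rw [abs_of_nonneg h3, abs_of_nonneg (by positivity)]
    rw [sub_le_iff_le_add, ← add_div, le_div_iff₀ hN']
    linarith
  · rw [cell_neg N H h, mul_zero, mul_zero]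

theorem cell_far (hN : 0 < N) (hH : ∀ g, 0 ≤ H g ∧ H g ≤ 1) {i j : ℕ} (hij : ¬ (i ≤ j + 1 ∧ j ≤ i + 1))
    {x y : X} (hx : cell N H i x ≠ 0) (hy : cell N H j y ≠ 0) : 1 / (N : ℝ) ≤ |H x - H y| := by
  have hx' : ⌊(N : ℝ) * H x⌋₊ = i := by
    by_contra h; exact hx (ind_neg h)
  have hy' : ⌊(N : ℝ) * H y⌋₊ = j := by
    by_contra h; exact hy (ind_neg h)
  have hN' : (0 : ℝ) < N := by exact_mod_cast hN
  have h0 : 0 ≤ (N : ℝ) * H x := mul_nonneg hN'.le (hH x).1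
  have h0' : 0 ≤ (N : ℝ) * H y := mul_nonneg hN'.le (hH y).1
  have h1 : (i : ℝ) ≤ N * H x := by rw [← hx']; exact Nat.floor_le h0
  have h2 : (N : ℝ) * H x < i + 1 := by rw [← hx']; exact Nat.lt_floor_add_one _
  have h1' : (j : ℝ) ≤ N * H y := by rw [← hy']; exact Nat.floor_le h0'
  have h2' : (N : ℝ) * H y < j + 1 := by rw [← hy']; exact Nat.lt_floor_add_one _
  rw [div_le_iff₀ hN']
  rw [not_and_or, not_le, not_le] at hij
  rcases hij with h | h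
  · have h3 : (j : ℝ) + 2 ≤ i := by exact_mod_cast h
    have h4 := le_abs_self (H x - H y)
    nlinarith
  · have h3 : (i : ℝ) + 2 ≤ j := by exact_mod_cast h
    have h4 := neg_abs_le (H x - H y)
    nlinarith

end cells

theorem mo_sum {X : Type} {ι : Type} (s : Finset ι) (F : ι → X → ℝ) {C : ℝ}
    (hF : ∀ i x, |F i x| ≤ C) (ξ : Ell2 X) :
    mo (fun x => ∑ i ∈ s, F i x) ξ = ∑ i ∈ s, mo (F i) ξ := by
  classical
  induction s using Finset.induction_on with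
  | empty =>
    ext x
    rw [Finset.sum_empty, mo_apply (C := 0) (fun x => by simp)]
    simp
  | insert i s hi ih =>
    rw [Finset.sum_insert hi, ← ih]
    have h1 : ∀ x, |∑ j ∈ s, F j x| ≤ s.card * C := fun x => by
      refine (Finset.abs_sum_le_sum_abs _ _).trans ?_
      rw [← nsmul_eq_mul]
      exact Finset.sum_le_card_nsmul _ _ _ fun j _ => hF j x
    rw [← mo_add (hF i) h1]
    congr 2
    funext x
    rw [Finset.sum_insert hi]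

section near

/-- The elementary double sum estimate. -/
theorem double_sum {H : Type} [NormedAddCommGroup H] [InnerProductSpace ℂ H] (N : ℕ) (hN : 0 < N)
    (X X' Y Y' : ℕ → H) (x y : ℕ → ℝ) (W : H →L[ℂ] H) (hW : ∀ v, ‖W v‖ = ‖v‖) {ε : ℝ}
    (hx : ∑ i ∈ Finset.range (N + 1), x i ^ 2 ≤ 1) (hy : ∑ i ∈ Finset.range (N + 1), y i ^ 2 ≤ 1)
    (hX : ∀ i, ‖X i‖ ≤ x i) (hY : ∀ i, ‖Y i‖ ≤ y i)
    (hX' : ∀ i, ‖X' i - ((i / N : ℝ) : ℂ) • X i‖ ≤ 1 / N * x i)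
    (hY' : ∀ i, ‖Y' i - ((i / N : ℝ) : ℂ) • Y i‖ ≤ 1 / N * y i)
    (hfar : ∀ i j : ℕ, ¬ (i ≤ j + 1 ∧ j ≤ i + 1) → ‖⟪Y j, W (X' i)⟫_ℂ‖ ≤ ε ∧
      ‖⟪Y' j, W (X i)⟫_ℂ‖ ≤ ε) :
    ‖⟪∑ j ∈ Finset.range (N + 1), Y j, W (∑ i ∈ Finset.range (N + 1), X' i)⟫_ℂ -
      ⟪∑ j ∈ Finset.range (N + 1), Y' j, W (∑ i ∈ Finset.range (N + 1), X i)⟫_ℂ‖ ≤
      9 / N + 2 * (N + 1) ^ 2 * ε := by
  have hε : 0 ≤ ε := (norm_nonneg _).trans (hfar 0 2 (by omega)).1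
  have hN' : (0 : ℝ) < N := by exact_mod_cast hN
  have hx0 : ∀ i, 0 ≤ x i := fun i => (norm_nonneg _).trans (hX i)
  have hy0 : ∀ i, 0 ≤ y i := fun i => (norm_nonneg _).trans (hY i)
  have e1 : ⟪∑ j ∈ Finset.range (N + 1), Y j, W (∑ i ∈ Finset.range (N + 1), X' i)⟫_ℂ -
      ⟪∑ j ∈ Finset.range (N + 1), Y' j, W (∑ i ∈ Finset.range (N + 1), X i)⟫_ℂ =
      ∑ i ∈ Finset.range (N + 1), ∑ j ∈ Finset.range (N + 1),
        (⟪Y j, W (X' i)⟫_ℂ - ⟪Y' j, W (X i)⟫_ℂ) := by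
    simp only [map_sum, sum_inner, inner_sum, Finset.sum_sub_distrib]
  rw [e1]
  have hterm : ∀ i j : ℕ, ‖⟪Y j, W (X' i)⟫_ℂ - ⟪Y' j, W (X i)⟫_ℂ‖ ≤
      (if i ≤ j + 1 ∧ j ≤ i + 1 then 3 / N * ((x i ^ 2 + y j ^ 2) / 2) else 0) + 2 * ε := by
    intro i j
    split_ifs with h
    · have e2 : ⟪Y j, W (X' i)⟫_ℂ - ⟪Y' j, W (X i)⟫_ℂ =
          ⟪Y j, W (X' i - ((i / N : ℝ) : ℂ) • X i)⟫_ℂ -
          ⟪Y' j - ((j / N : ℝ) : ℂ) • Y j, W (X i)⟫_ℂ +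
          (((i / N : ℝ) - (j / N : ℝ) : ℝ) : ℂ) * ⟪Y j, W (X i)⟫_ℂ := by
        simp only [map_sub, map_smul, inner_sub_right, inner_sub_left, inner_smul_left,
          inner_smul_right, Complex.conj_ofReal]
        push_cast
        ring
      rw [e2]
      have b1 : ‖⟪Y j, W (X' i - ((i / N : ℝ) : ℂ) • X i)⟫_ℂ‖ ≤ 1 / N * (x i * y j) := by
        refine (norm_inner_le_norm _ _).trans ?_
        rw [hW]
        calc _ ≤ y j * (1 / N * x i) :=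
              mul_le_mul (hY j) (hX' i) (norm_nonneg _) (hy0 j)
          _ = _ := by ring
      have b2 : ‖⟪Y' j - ((j / N : ℝ) : ℂ) • Y j, W (X i)⟫_ℂ‖ ≤ 1 / N * (x i * y j) := by
        refine (norm_inner_le_norm _ _).trans ?_
        rw [hW]
        have := hy0 j
        calc _ ≤ (1 / N * y j) * x i :=
              mul_le_mul (hY' j) (hX i) (norm_nonneg _) (by positivity)
          _ = _ := by ring
      have b3 : ‖(((i / N : ℝ) - (j / N : ℝ) : ℝ) : ℂ) * ⟪Y j, W (X i)⟫_ℂ‖ ≤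
          1 / N * (x i * y j) := by
        rw [norm_mul, Complex.norm_real, Real.norm_eq_abs]
        have h1 : |(i / N : ℝ) - (j / N : ℝ)| ≤ 1 / N := by
          rw [← sub_div, abs_div, abs_of_pos hN']
          gcongr
          rw [abs_le]
          have h2 : (i : ℝ) ≤ j + 1 := by exact_mod_cast h.1
          have h3 : (j : ℝ) ≤ i + 1 := by exact_mod_cast h.2
          constructor <;> linarith
        have h2 : ‖⟪Y j, W (X i)⟫_ℂ‖ ≤ x i * y j := by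
          refine (norm_inner_le_norm _ _).trans ?_
          rw [hW, mul_comm]
          exact mul_le_mul (hX i) (hY j) (norm_nonneg _) (hx0 i)
        gcongr
      have b4 : x i * y j ≤ (x i ^ 2 + y j ^ 2) / 2 := by nlinarith [sq_nonneg (x i - y j)]
      calc _ ≤ 1 / N * (x i * y j) + 1 / N * (x i * y j) + 1 / N * (x i * y j) :=
            (norm_add_le _ _).trans (add_le_add ((norm_sub_le _ _).trans (add_le_add b1 b2)) b3)
        _ = 3 / N * (x i * y j) := by ring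
        _ ≤ 3 / N * ((x i ^ 2 + y j ^ 2) / 2) := by gcongr
        _ ≤ _ := by linarith
    · rw [zero_add]
      refine (norm_sub_le _ _).trans ?_
      have := hfar i j h
      linarith [this.1, this.2]
  have hcard : ∀ i : ℕ, (((Finset.range (N + 1)).filter fun j => i ≤ j + 1 ∧ j ≤ i + 1).card : ℝ) ≤ 3 := by
    intro i
    have : ((Finset.range (N + 1)).filter fun j => i ≤ j + 1 ∧ j ≤ i + 1) ⊆ {i - 1, i, i + 1} := by
      intro j hj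
      rw [Finset.mem_filter] at hj
      simp only [Finset.mem_insert, Finset.mem_singleton]
      omega
    exact_mod_cast (Finset.card_le_card this).trans Finset.card_le_three
  have hcard' : ∀ j : ℕ, (((Finset.range (N + 1)).filter fun i => i ≤ j + 1 ∧ j ≤ i + 1).card : ℝ) ≤ 3 := by
    intro i
    have : ((Finset.range (N + 1)).filter fun j => j ≤ i + 1 ∧ i ≤ j + 1) ⊆ {i - 1, i, i + 1} := by
      intro j hj
      rw [Finset.mem_filter] at hj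
      simp only [Finset.mem_insert, Finset.mem_singleton]
      omega
    exact_mod_cast (Finset.card_le_card this).trans Finset.card_le_three
  have hsum1 : ∑ i ∈ Finset.range (N + 1), ∑ j ∈ Finset.range (N + 1),
      (if i ≤ j + 1 ∧ j ≤ i + 1 then x i ^ 2 else 0) ≤ 3 := by
    calc _ ≤ ∑ i ∈ Finset.range (N + 1), 3 * x i ^ 2 := by
          refine Finset.sum_le_sum fun i _ => ?_
          rw [← Finset.sum_filter, Finset.sum_const, nsmul_eq_mul]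
          have := hcard i
          gcongr
      _ ≤ 3 := by rw [← Finset.mul_sum]; linarith
  have hsum2 : ∑ i ∈ Finset.range (N + 1), ∑ j ∈ Finset.range (N + 1),
      (if i ≤ j + 1 ∧ j ≤ i + 1 then y j ^ 2 else 0) ≤ 3 := by
    rw [Finset.sum_comm]
    calc _ ≤ ∑ i ∈ Finset.range (N + 1), 3 * y i ^ 2 := by
          refine Finset.sum_le_sum fun i _ => ?_
          rw [← Finset.sum_filter, Finset.sum_const, nsmul_eq_mul]
          have := hcard' i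
          gcongr
      _ ≤ 3 := by rw [← Finset.mul_sum]; linarith
  calc _ ≤ ∑ i ∈ Finset.range (N + 1), ∑ j ∈ Finset.range (N + 1),
        ((if i ≤ j + 1 ∧ j ≤ i + 1 then 3 / N * ((x i ^ 2 + y j ^ 2) / 2) else 0) + 2 * ε) :=
        (norm_sum_le _ _).trans (Finset.sum_le_sum fun i _ =>
          (norm_sum_le _ _).trans (Finset.sum_le_sum fun j _ => hterm i j))
    _ = 3 / N / 2 * (∑ i ∈ Finset.range (N + 1), ∑ j ∈ Finset.range (N + 1),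
          (if i ≤ j + 1 ∧ j ≤ i + 1 then x i ^ 2 else 0) +
          ∑ i ∈ Finset.range (N + 1), ∑ j ∈ Finset.range (N + 1),
          (if i ≤ j + 1 ∧ j ≤ i + 1 then y j ^ 2 else 0)) + 2 * (N + 1) ^ 2 * ε := by
        rw [← Finset.sum_add_distrib, Finset.mul_sum]
        have e3 : (2 * ((N : ℝ) + 1) ^ 2 * ε) = ∑ i ∈ Finset.range (N + 1),
            ∑ j ∈ Finset.range (N + 1), 2 * ε := by
          simp only [Finset.sum_const, Finset.card_range, nsmul_eq_mul]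
          push_cast
          ring
        rw [e3, ← Finset.sum_add_distrib]
        refine Finset.sum_congr rfl fun i _ => ?_
        rw [← Finset.sum_add_distrib, Finset.mul_sum, ← Finset.sum_add_distrib]
        refine Finset.sum_congr rfl fun j _ => ?_
        split_ifs <;> ring
    _ ≤ 3 / N / 2 * (3 + 3) + 2 * (N + 1) ^ 2 * ε := by gcongr
    _ = _ := by ring

end near

section balance

variable {Γ Λ : Type} [Group Γ] [Group Λ] {V : Λ →* (Ell2 Γ →L[ℂ] Ell2 Γ)}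

/-- The two-sided limit `F ↦ lim_k W(z_k)* q F W(z_k) + W(z_k⁻¹)* q F W(z_k⁻¹)`. -/
noncomputable def Pi2 (U : Ultrafilter ℕ) (V : Λ →* (Ell2 Γ →L[ℂ] Ell2 Γ)) (z : ℕ → Λ)
    (q F : Γ → ℝ) : Ell2 Γ →L[ℂ] Ell2 Γ :=
  PiL U V z (fun _ g => q g * F g) + PiL U V (fun k => (z k)⁻¹) (fun _ g => q g * F g)

theorem pair_W (hV : Frame V) (v w : Λ) (ξ η : Ell2 Γ) (F G : Γ → ℝ) :
    ⟪Wr V v⁻¹ (mo G (Wr V v ξ)), Wr V w⁻¹ (mo F (Wr V w η))⟫_ℂ =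
      ⟪mo G (Wr V v ξ), Wr V (v * w⁻¹) (mo F (Wr V w η))⟫_ℂ := by
  have h := (regRep_W hV).inner_left v⁻¹ (mo G (Wr V v ξ)) (Wr V w⁻¹ (mo F (Wr V w η)))
  rw [h, inv_inv, map_mul]
  rfl

/-- The balance estimate for one pair. -/
theorem pair_estimate (hV : Frame V) {q H : Γ → ℝ} (hq : ∀ g, 0 ≤ q g ∧ q g ≤ 1)
    (hH : ∀ g, 0 ≤ H g ∧ H g ≤ 1) (N : ℕ) (hN : 0 < N) (η ζ : Ell2 Γ) (hη : ‖η‖ ≤ 1)
    (hζ : ‖ζ‖ ≤ 1) (w : Λ) {ε : ℝ}
    (hfar : ∀ F G : Γ → ℝ, (∀ g, |F g| ≤ 1) → (∀ g, |G g| ≤ 1) →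
      (∀ g h, F g ≠ 0 → G h ≠ 0 → 1 / (N : ℝ) ≤ |H g - H h|) →
      ‖⟪mo (fun g => q g * G g) ζ, Wr V w (mo (fun g => q g * F g) η)⟫_ℂ‖ ≤ ε) :
    ‖⟪mo q ζ, Wr V w (mo (fun g => q g * H g) η)⟫_ℂ -
      ⟪mo (fun g => q g * H g) ζ, Wr V w (mo q η)⟫_ℂ‖ ≤ 9 / N + 2 * (N + 1) ^ 2 * ε := by
  have hq' : ∀ g, |q g| ≤ 1 := fun g => by rw [abs_of_nonneg (hq g).1]; exact (hq g).2
  have hH' : ∀ g, |H g| ≤ 1 := fun g => by rw [abs_of_nonneg (hH g).1]; exact (hH g).2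
  have hm : ∀ {a b : ℝ}, |a| ≤ 1 → |b| ≤ 1 → |a * b| ≤ 1 := fun {a b} ha hb => by
    rw [abs_mul]
    exact mul_le_one₀ ha (abs_nonneg _) hb
  have hqc : ∀ i g, |q g * cell N H i g| ≤ 1 := fun i g => hm (hq' g) (cell_abs N H i g)
  have hqHc : ∀ i g, |q g * (H g * cell N H i g)| ≤ 1 := fun i g =>
    hm (hq' g) (hm (hH' g) (cell_abs N H i g))
  have hsum : ∀ ξ : Ell2 Γ, mo q ξ =
      ∑ i ∈ Finset.range (N + 1), mo (fun g => q g * cell N H i g) ξ := by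
    intro ξ
    rw [← mo_sum (Finset.range (N + 1)) (fun i g => q g * cell N H i g) hqc]
    congr 2
    funext g
    rw [← Finset.mul_sum, cell_sum N H hH, mul_one]
  have hsum' : ∀ ξ : Ell2 Γ, mo (fun g => q g * H g) ξ =
      ∑ i ∈ Finset.range (N + 1), mo (fun g => q g * (H g * cell N H i g)) ξ := by
    intro ξ
    rw [← mo_sum (Finset.range (N + 1)) (fun i g => q g * (H g * cell N H i g)) hqHc]
    congr 2
    funext g
    rw [← Finset.mul_sum, ← Finset.mul_sum, cell_sum N H hH, mul_one]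
  have hnorm : ∀ (ξ : Ell2 Γ) (i : ℕ), ‖mo (fun g => q g * cell N H i g) ξ‖ ≤
      ‖mo (cell N H i) ξ‖ := by
    intro ξ i
    refine norm_mo_le_mo (hqc i) (cell_abs N H i) (fun g => ?_) ξ
    rw [abs_mul]
    exact mul_le_of_le_one_left (abs_nonneg _) (hq' g)
  have hdiff : ∀ (ξ : Ell2 Γ) (i : ℕ), ‖mo (fun g => q g * (H g * cell N H i g)) ξ -
      ((i / N : ℝ) : ℂ) • mo (fun g => q g * cell N H i g) ξ‖ ≤ 1 / N * ‖mo (cell N H i) ξ‖ := by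
    intro ξ i
    have hb1 : ∀ g, |(i / N : ℝ) * (q g * cell N H i g)| ≤ (i / N : ℝ) := fun g => by
      rw [abs_mul, abs_of_nonneg (by positivity)]
      exact mul_le_of_le_one_right (by positivity) (hqc i g)
    have hb2 : ∀ g, |(1 / N : ℝ) * cell N H i g| ≤ (1 / N : ℝ) := fun g => by
      rw [abs_mul, abs_of_nonneg (by positivity)]
      exact mul_le_of_le_one_right (by positivity) (cell_abs N H i g)
    have e1 : mo (fun g => q g * (H g * cell N H i g)) ξ -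
        ((i / N : ℝ) : ℂ) • mo (fun g => q g * cell N H i g) ξ =
        mo (fun g => q g * (H g * cell N H i g) - (i / N : ℝ) * (q g * cell N H i g)) ξ := by
      rw [mo_sub (hqHc i) hb1, mo_smul _ (hqc i)]
    have e2 : ((1 / N : ℝ) : ℝ) * ‖mo (cell N H i) ξ‖ =
        ‖mo (fun g => (1 / N : ℝ) * cell N H i g) ξ‖ := by
      rw [mo_smul _ (cell_abs N H i), norm_smul, Complex.norm_real,
        Real.norm_of_nonneg (by positivity)]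
    rw [e1, e2]
    refine norm_mo_le_mo (C := 1 + i / N) (fun g => ?_) hb2 (fun g => ?_) ξ
    · exact (abs_sub _ _).trans (add_le_add (hqHc i g) (hb1 g))
    · have e3 : q g * (H g * cell N H i g) - (i / N : ℝ) * (q g * cell N H i g) =
          q g * ((H g - i / N) * cell N H i g) := by ring
      rw [e3, abs_mul]
      exact (mul_le_of_le_one_left (abs_nonneg _) (hq' g)).trans (cell_near N H hN hH i g)
  have hsq : ∀ ξ : Ell2 Γ, ‖ξ‖ ≤ 1 →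
      ∑ i ∈ Finset.range (N + 1), ‖mo (cell N H i) ξ‖ ^ 2 ≤ 1 := by
    intro ξ hξ
    have h1 : ∀ i, ‖mo (cell N H i) ξ‖ ^ 2 = (⟪ξ, mo (cell N H i) ξ⟫_ℂ).re := by
      intro i
      rw [inner_mo (cell_abs N H i), Complex.ofReal_re, norm_mo_sq (cell_abs N H i)]
      refine tsum_congr fun g => ?_
      rw [cell_sq]
    rw [Finset.sum_congr rfl fun i _ => h1 i, ← Complex.re_sum, ← inner_sum,
      ← mo_sum (Finset.range (N + 1)) (fun i => cell N H i) (cell_abs N H)]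
    have h2 : (fun g => ∑ i ∈ Finset.range (N + 1), cell N H i g) = fun _ => (1 : ℝ) := by
      funext g
      exact cell_sum N H hH g
    rw [h2, mo_one, inner_self_eq_norm_sq_to_K]
    have h3 : ‖ξ‖ ^ 2 ≤ 1 := pow_le_one₀ (norm_nonneg _) hξ
    have h4 : (((‖ξ‖ : ℂ)) ^ 2).re = ‖ξ‖ ^ 2 := by
      rw [← Complex.ofReal_pow, Complex.ofReal_re]
    exact h4.le.trans h3
  rw [hsum ζ, hsum' η, hsum' ζ, hsum η]
  refine double_sum N hN _ _ _ _ (fun i => ‖mo (cell N H i) η‖) (fun i => ‖mo (cell N H i) ζ‖)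
    (Wr V w) (norm_W hV w) (hsq η hη) (hsq ζ hζ) (hnorm η) (hnorm ζ) (hdiff η) (hdiff ζ) ?_
  intro i j hij
  constructor
  · refine hfar (fun g => H g * cell N H i g) (cell N H j)
      (fun g => hm (hH' g) (cell_abs N H i g)) (cell_abs N H j) (fun g h hg hh => ?_)
    exact cell_far N H hN hH hij (fun h0 => hg (by rw [h0, mul_zero])) hh
  · refine hfar (cell N H i) (fun g => H g * cell N H j g) (cell_abs N H i)
      (fun g => hm (hH' g) (cell_abs N H j g)) (fun g h hg hh => ?_)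
    exact cell_far N H hN hH hij hg (fun h0 => hh (by rw [h0, mul_zero]))

/-- The hypotheses for far pairs. -/
def Far (U : Ultrafilter ℕ) (V : Λ →* (Ell2 Γ →L[ℂ] Ell2 Γ)) (z z' : ℕ → Λ) (q H : Γ → ℝ)
    (a b : Γ) : Prop :=
  ∀ δ : ℝ, 0 < δ → ∀ ε : ℝ, 0 < ε → ∃ (E P : Γ → Prop) (T : Finset Γ),
    (∀ᶠ k in U, ∀ w, (w = z k ∨ w = (z k)⁻¹) →
      ‖mo (fun g => q g * ind (fun g => ¬ E g) g) (Wr V w (dl a))‖ ≤ ε) ∧
    (∀ᶠ k in U, ∀ w, (w = z' k ∨ w = (z' k)⁻¹) →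
      ‖mo (fun g => q g * ind (fun g => ¬ E g) g) (Wr V w (dl b))‖ ≤ ε) ∧
    (∀ k h, E k → E h → δ ≤ |H k - H h| → P (k⁻¹ * h)) ∧
    (∀ k₁ h₁ k₂ h₂, E k₁ → E h₁ → E k₂ → E h₂ → δ ≤ |H k₁ - H h₁| → δ ≤ |H k₂ - H h₂| →
      k₁⁻¹ * h₁ = k₂⁻¹ * h₂ → k₂ * k₁⁻¹ ∈ T) ∧
    (∀ k l w v, (w = z k ∨ w = (z k)⁻¹) → (v = z' l ∨ v = (z' l)⁻¹) →
      Real.sqrt T.card * ‖mo (ind P) (V (w * v⁻¹) (dl 1))‖ ≤ ε)

/-- Separation estimate (statement of block B5). -/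
def SepEst (V : Λ →* (Ell2 Γ →L[ℂ] Ell2 Γ)) : Prop :=
  ∀ (u : Λ) (η ζ : Ell2 Γ) (P : Γ → Prop) (T : Finset Γ),
    (∀ k h, η k ≠ 0 → ζ h ≠ 0 → P (k⁻¹ * h)) →
    (∀ k₁ h₁ k₂ h₂, η k₁ ≠ 0 → ζ h₁ ≠ 0 → η k₂ ≠ 0 → ζ h₂ ≠ 0 →
      k₁⁻¹ * h₁ = k₂⁻¹ * h₂ → k₂ * k₁⁻¹ ∈ T) →
    ‖⟪ζ, Wr V u⁻¹ η⟫_ℂ‖ ≤ Real.sqrt T.card * ‖η‖ * ‖ζ‖ * ‖mo (ind P) (V u (dl 1))‖

theorem far_estimate (hV : Frame V) (hsep : SepEst V) {q H : Γ → ℝ}
    (hq : ∀ g, 0 ≤ q g ∧ q g ≤ 1) {E P : Γ → Prop} {T : Finset Γ} {δ ε : ℝ}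
    (η ζ : Ell2 Γ) (hη : ‖η‖ ≤ 1) (hζ : ‖ζ‖ ≤ 1) (u : Λ)
    (hE1 : ‖mo (fun g => q g * ind (fun g => ¬ E g) g) η‖ ≤ ε)
    (hE2 : ‖mo (fun g => q g * ind (fun g => ¬ E g) g) ζ‖ ≤ ε)
    (hP : ∀ k h, E k → E h → δ ≤ |H k - H h| → P (k⁻¹ * h))
    (hT : ∀ k₁ h₁ k₂ h₂, E k₁ → E h₁ → E k₂ → E h₂ → δ ≤ |H k₁ - H h₁| → δ ≤ |H k₂ - H h₂| →
      k₁⁻¹ * h₁ = k₂⁻¹ * h₂ → k₂ * k₁⁻¹ ∈ T)
    (hu : Real.sqrt T.card * ‖mo (ind P) (V u (dl 1))‖ ≤ ε)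
    (F G : Γ → ℝ) (hF : ∀ g, |F g| ≤ 1) (hG : ∀ g, |G g| ≤ 1)
    (hFG : ∀ g h, F g ≠ 0 → G h ≠ 0 → δ ≤ |H g - H h|) :
    ‖⟪mo (fun g => q g * G g) ζ, Wr V u⁻¹ (mo (fun g => q g * F g) η)⟫_ℂ‖ ≤ 3 * ε := by
  have hq' : ∀ g, |q g| ≤ 1 := fun g => by rw [abs_of_nonneg (hq g).1]; exact (hq g).2
  have hm : ∀ {a b : ℝ}, |a| ≤ 1 → |b| ≤ 1 → |a * b| ≤ 1 := fun {a b} ha hb => by
    rw [abs_mul]
    exact mul_le_one₀ ha (abs_nonneg _) hb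
  have hsplit : ∀ (F : Γ → ℝ), (∀ g, |F g| ≤ 1) → ∀ ξ : Ell2 Γ,
      mo (fun g => q g * F g) ξ = mo (fun g => q g * F g * ind E g) ξ +
        mo (fun g => q g * F g * ind (fun g => ¬ E g) g) ξ := by
    intro F hF ξ
    rw [← mo_add (fun g => hm (hm (hq' g) (hF g)) (abs_ind_le _ _))
      (fun g => hm (hm (hq' g) (hF g)) (abs_ind_le _ _))]
    congr 2
    funext g
    by_cases h : E g
    · rw [ind_pos h, ind_neg (P := fun g => ¬ E g) (fun h1 => h1 h)]; ring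
    · rw [ind_neg h, ind_pos (P := fun g => ¬ E g) h]; ring
  have hcompl : ∀ (F : Γ → ℝ), (∀ g, |F g| ≤ 1) → ∀ ξ : Ell2 Γ,
      ‖mo (fun g => q g * F g * ind (fun g => ¬ E g) g) ξ‖ ≤
        ‖mo (fun g => q g * ind (fun g => ¬ E g) g) ξ‖ := by
    intro F hF ξ
    refine norm_mo_le_mo (fun g => hm (hm (hq' g) (hF g)) (abs_ind_le _ _))
      (fun g => hm (hq' g) (abs_ind_le _ _)) (fun g => ?_) ξ
    have e1 : q g * F g * ind (fun g => ¬ E g) g = F g * (q g * ind (fun g => ¬ E g) g) := by ring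
    rw [e1, abs_mul (F g)]
    exact mul_le_of_le_one_left (abs_nonneg _) (hF g)
  have hmain : ∀ (F : Γ → ℝ), (∀ g, |F g| ≤ 1) → ∀ ξ : Ell2 Γ, ‖ξ‖ ≤ 1 →
      ‖mo F ξ‖ ≤ 1 := fun F hF ξ hξ => (norm_mo_le hF ξ).trans (by rw [one_mul]; exact hξ)
  obtain ⟨X, hX⟩ : ∃ X, X = mo (fun g => q g * F g * ind E g) η := ⟨_, rfl⟩
  obtain ⟨Xc, hXc⟩ : ∃ X, X = mo (fun g => q g * F g * ind (fun g => ¬ E g) g) η := ⟨_, rfl⟩
  obtain ⟨Y, hY⟩ : ∃ X, X = mo (fun g => q g * G g * ind E g) ζ := ⟨_, rfl⟩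
  obtain ⟨Yc, hYc⟩ : ∃ X, X = mo (fun g => q g * G g * ind (fun g => ¬ E g) g) ζ := ⟨_, rfl⟩
  have hX1 : ‖X‖ ≤ 1 := by
    rw [hX]; exact hmain _ (fun g => hm (hm (hq' g) (hF g)) (abs_ind_le _ _)) _ hη
  have hY1 : ‖Y‖ ≤ 1 := by
    rw [hY]; exact hmain _ (fun g => hm (hm (hq' g) (hG g)) (abs_ind_le _ _)) _ hζ
  have hXc1 : ‖Xc‖ ≤ ε := by rw [hXc]; exact (hcompl F hF η).trans hE1
  have hYc1 : ‖Yc‖ ≤ ε := by rw [hYc]; exact (hcompl G hG ζ).trans hE2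
  have hXX : ‖X + Xc‖ ≤ 1 := by
    rw [hX, hXc, ← hsplit F hF]; exact hmain _ (fun g => hm (hq' g) (hF g)) _ hη
  have hsupp : ∀ (F : Γ → ℝ), (∀ g, |F g| ≤ 1) → ∀ (ξ : Ell2 Γ) (k : Γ),
      mo (fun g => q g * F g * ind E g) ξ k ≠ 0 → F k ≠ 0 ∧ E k := by
    intro F hF ξ k hk
    rw [mo_apply (C := 1) (fun g => hm (hm (hq' g) (hF g)) (abs_ind_le _ _))] at hk
    constructor
    · intro h0
      exact hk (by rw [h0]; simp)
    · by_contra h0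
      exact hk (by rw [ind_neg h0]; simp)
  have hs := hsep u X Y P T (by
    intro k h hk hh
    rw [hX] at hk
    rw [hY] at hh
    have h1 := hsupp F hF η k hk
    have h2 := hsupp G hG ζ h hh
    exact hP k h h1.2 h2.2 (hFG k h h1.1 h2.1)) (by
    intro k₁ h₁ k₂ h₂ a1 a2 a3 a4 he
    rw [hX] at a1 a3
    rw [hY] at a2 a4
    have b1 := hsupp F hF η k₁ a1
    have b2 := hsupp G hG ζ h₁ a2
    have b3 := hsupp F hF η k₂ a3
    have b4 := hsupp G hG ζ h₂ a4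
    exact hT k₁ h₁ k₂ h₂ b1.2 b2.2 b3.2 b4.2 (hFG _ _ b1.1 b2.1) (hFG _ _ b3.1 b4.1) he)
  have hs' : ‖⟪Y, Wr V u⁻¹ X⟫_ℂ‖ ≤ ε := by
    refine hs.trans (le_trans ?_ hu)
    have h0 : 0 ≤ ‖mo (ind P) (V u (dl 1))‖ := norm_nonneg _
    have h1 : Real.sqrt T.card * ‖X‖ * ‖Y‖ ≤ Real.sqrt T.card := by
      rw [mul_assoc]
      exact mul_le_of_le_one_right (Real.sqrt_nonneg _) (mul_le_one₀ hX1 (norm_nonneg _) hY1)
    gcongr
  rw [hsplit F hF η, hsplit G hG ζ, ← hX, ← hXc, ← hY, ← hYc]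
  have e1 : ⟪Y + Yc, Wr V u⁻¹ (X + Xc)⟫_ℂ = ⟪Y, Wr V u⁻¹ X⟫_ℂ + ⟪Y, Wr V u⁻¹ Xc⟫_ℂ +
      ⟪Yc, Wr V u⁻¹ (X + Xc)⟫_ℂ := by
    rw [inner_add_left, map_add, inner_add_right]
  rw [e1]
  have b1 : ‖⟪Y, Wr V u⁻¹ Xc⟫_ℂ‖ ≤ ε := by
    refine (norm_inner_le_norm _ _).trans ?_
    rw [norm_W hV]
    calc ‖Y‖ * ‖Xc‖ ≤ 1 * ε := mul_le_mul hY1 hXc1 (norm_nonneg _) zero_le_one
      _ = ε := one_mul _
  have b2 : ‖⟪Yc, Wr V u⁻¹ (X + Xc)⟫_ℂ‖ ≤ ε := by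
    refine (norm_inner_le_norm _ _).trans ?_
    rw [norm_W hV]
    have hε : 0 ≤ ε := (norm_nonneg _).trans hYc1
    calc ‖Yc‖ * ‖X + Xc‖ ≤ ε * 1 := mul_le_mul hYc1 hXX (norm_nonneg _) hε
      _ = ε := mul_one _
  calc _ ≤ ‖⟪Y, Wr V u⁻¹ X⟫_ℂ‖ + ‖⟪Y, Wr V u⁻¹ Xc⟫_ℂ‖ + ‖⟪Yc, Wr V u⁻¹ (X + Xc)⟫_ℂ‖ :=
        norm_add₃_le
    _ ≤ ε + ε + ε := add_le_add (add_le_add hs' b1) b2
    _ = 3 * ε := by ring

/-- The balance theorem. -/
theorem balance (hV : Frame V) (hsep : SepEst V) (U : Ultrafilter ℕ) (z z' : ℕ → Λ)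
    {q H : Γ → ℝ} (hq : ∀ g, 0 ≤ q g ∧ q g ≤ 1) (hH : ∀ g, 0 ≤ H g ∧ H g ≤ 1)
    (h1 : Pi2 U V z q (fun _ => 1) = 1) (h1' : Pi2 U V z' q (fun _ => 1) = 1) (a b : Γ)
    (hfar : Far U V z z' q H a b) :
    ⟪(dl b : Ell2 Γ), Pi2 U V z q H (dl a)⟫_ℂ = ⟪(dl b : Ell2 Γ), Pi2 U V z' q H (dl a)⟫_ℂ := by
  have hq' : ∀ g, |q g| ≤ 1 := fun g => by rw [abs_of_nonneg (hq g).1]; exact (hq g).2
  have hH' : ∀ g, |H g| ≤ 1 := fun g => by rw [abs_of_nonneg (hH g).1]; exact (hH g).2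
  have hqH : ∀ g, |q g * H g| ≤ 1 := fun g => by
    rw [abs_mul]
    exact mul_le_one₀ (hq' g) (abs_nonneg _) (hH' g)
  have hq1 : (fun g => q g * (1 : ℝ)) = q := by
    funext g; rw [mul_one]
  -- the approximants
  obtain ⟨A, hA⟩ : ∃ A : (Γ → ℝ) → Λ → Γ → Ell2 Γ, A = fun F w c =>
    Wr V w⁻¹ (mo F (Wr V w (dl c))) := ⟨_, rfl⟩
  have hAspec : ∀ (y : ℕ → Λ) (F : Γ → ℝ), (∀ g, |F g| ≤ 1) → ∀ (ξ : Ell2 Γ) (c : Γ),
      Tendsto (fun k => ⟪ξ, A F (y k) c⟫_ℂ) U (𝓝 ⟪ξ, PiL U V y (fun _ => F) (dl c)⟫_ℂ) := by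
    intro y F hF ξ c
    refine (pl_spec (U := U) (z := y) (F := fun _ => F) hV (fun _ => hF) ξ (dl c)).congr
      fun k => ?_
    rw [hA]
    have := (regRep_W hV).inner_left (y k) ξ (mo F (Wr V (y k) (dl c)))
    rw [this]
  have hAspec' : ∀ (y : ℕ → Λ) (F : Γ → ℝ), (∀ g, |F g| ≤ 1) → ∀ (ξ : Ell2 Γ) (c : Γ),
      Tendsto (fun k => ⟪A F (y k) c, ξ⟫_ℂ) U (𝓝 ⟪PiL U V y (fun _ => F) (dl c), ξ⟫_ℂ) := by
    intro y F hF ξ c
    have h2 := (Complex.continuous_conj.tendsto _).comp (hAspec y F hF ξ c)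
    rw [inner_conj_symm] at h2
    refine h2.congr fun k => ?_
    rw [Function.comp_apply, inner_conj_symm]
  obtain ⟨A2, hA2⟩ : ∃ A2 : (Γ → ℝ) → Λ → Γ → Ell2 Γ, A2 = fun F w c =>
    A F w c + A F w⁻¹ c := ⟨_, rfl⟩
  have hA2spec : ∀ (y : ℕ → Λ) (F : Γ → ℝ), (∀ g, |q g * F g| ≤ 1) → ∀ (ξ : Ell2 Γ) (c : Γ),
      Tendsto (fun k => ⟪ξ, A2 (fun g => q g * F g) (y k) c⟫_ℂ) U
        (𝓝 ⟪ξ, Pi2 U V y q F (dl c)⟫_ℂ) := by
    intro y F hF ξ c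
    rw [Pi2, add_apply, inner_add_right]
    refine ((hAspec y _ hF ξ c).add (hAspec (fun k => (y k)⁻¹) _ hF ξ c)).congr fun k => ?_
    rw [hA2, ← inner_add_right]
  have hA2spec' : ∀ (y : ℕ → Λ) (F : Γ → ℝ), (∀ g, |q g * F g| ≤ 1) → ∀ (ξ : Ell2 Γ) (c : Γ),
      Tendsto (fun k => ⟪A2 (fun g => q g * F g) (y k) c, ξ⟫_ℂ) U
        (𝓝 ⟪Pi2 U V y q F (dl c), ξ⟫_ℂ) := by
    intro y F hF ξ c
    rw [Pi2, add_apply, inner_add_left]
    refine ((hAspec' y _ hF ξ c).add (hAspec' (fun k => (y k)⁻¹) _ hF ξ c)).congr fun k => ?_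
    rw [hA2, ← inner_add_left]
  have hsymm : ⟪(dl b : Ell2 Γ), Pi2 U V z' q H (dl a)⟫_ℂ =
      ⟪Pi2 U V z' q H (dl b), (dl a : Ell2 Γ)⟫_ℂ := by
    rw [Pi2, add_apply, add_apply, inner_add_left, inner_add_right,
      pl_sym hV (fun _ => hqH), pl_sym hV (fun _ => hqH)]
  rw [hsymm]
  have hone : ∀ g, |q g * (fun _ => (1 : ℝ)) g| ≤ 1 := fun g => by
    change |q g * 1| ≤ 1
    rw [mul_one]; exact hq' g
  have l1 := hA2spec z H hqH (dl b) a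
  have l2 : Tendsto (fun k => ⟪Pi2 U V z' q H (dl b), A2 (fun g => q g * 1) (z k) a⟫_ℂ) U
      (𝓝 ⟪Pi2 U V z' q H (dl b), (dl a : Ell2 Γ)⟫_ℂ) := by
    have := hA2spec z (fun _ => 1) hone (Pi2 U V z' q H (dl b)) a
    rw [h1] at this
    exact this
  have hd := l1.sub l2
  suffices hz : Tendsto (fun k => ⟪(dl b : Ell2 Γ), A2 (fun g => q g * H g) (z k) a⟫_ℂ -
      ⟪Pi2 U V z' q H (dl b), A2 (fun g => q g * 1) (z k) a⟫_ℂ) U (𝓝 0) by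
    exact sub_eq_zero.mp (tendsto_nhds_unique hd hz)
  rw [Metric.tendsto_nhds]
  intro ε₀ hε₀
  obtain ⟨N, hN⟩ := exists_nat_gt (72 / ε₀)
  have hNpos : 0 < N := by
    have : (0 : ℝ) < N := lt_trans (by positivity) hN
    exact_mod_cast this
  have hN' : (0 : ℝ) < N := by exact_mod_cast hNpos
  obtain ⟨ε, hε0, hε⟩ : ∃ ε : ℝ, 0 < ε ∧ 24 * ((N : ℝ) + 1) ^ 2 * ε ≤ ε₀ / 4 := by
    refine ⟨ε₀ / (96 * ((N : ℝ) + 1) ^ 2), by positivity, ?_⟩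
    rw [mul_div_assoc', div_le_iff₀ (by positivity)]
    nlinarith
  have hbound : 4 * (9 / N + 2 * ((N : ℝ) + 1) ^ 2 * (3 * ε)) ≤ 3 * ε₀ / 4 := by
    have h3 : 36 / (N : ℝ) ≤ ε₀ / 2 := by
      rw [div_le_div_iff₀ hN' (by norm_num)]
      rw [div_lt_iff₀ hε₀] at hN
      linarith
    calc 4 * (9 / N + 2 * ((N : ℝ) + 1) ^ 2 * (3 * ε)) =
          36 / N + 24 * ((N : ℝ) + 1) ^ 2 * ε := by ring
      _ ≤ ε₀ / 2 + ε₀ / 4 := add_le_add h3 hε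
      _ = 3 * ε₀ / 4 := by ring
  obtain ⟨E, P, T, f1, f2, f3, f4, f5⟩ := hfar (1 / N) (by positivity) ε hε0
  filter_upwards [f1] with k hk
  rw [dist_zero_right]
  -- the inner limit
  have m1 := hA2spec' z' (fun _ => 1) hone (A2 (fun g => q g * H g) (z k) a) b
  rw [h1'] at m1
  have m2 := hA2spec' z' H hqH (A2 (fun g => q g * 1) (z k) a) b
  have m3 := (m1.sub m2).norm
  refine lt_of_le_of_lt (le_of_tendsto m3 ?_) (show 3 * ε₀ / 4 < ε₀ by linarith)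
  filter_upwards [f2] with l hl
  have hpair : ∀ w v, (w = z k ∨ w = (z k)⁻¹) → (v = z' l ∨ v = (z' l)⁻¹) →
      ‖⟪A q v b, A (fun g => q g * H g) w a⟫_ℂ - ⟪A (fun g => q g * H g) v b, A q w a⟫_ℂ‖ ≤
        9 / N + 2 * ((N : ℝ) + 1) ^ 2 * (3 * ε) := by
    intro w v hw hv
    simp only [hA]
    rw [pair_W hV, pair_W hV]
    have hη : ‖Wr V w (dl a : Ell2 Γ)‖ ≤ 1 := by rw [norm_W hV, norm_dl]
    have hζ : ‖Wr V v (dl b : Ell2 Γ)‖ ≤ 1 := by rw [norm_W hV, norm_dl]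
    refine pair_estimate hV hq hH N hNpos _ _ hη hζ (v * w⁻¹) ?_
    intro F G hF hG hFG
    have hu := f5 k l w v hw hv
    have := far_estimate hV hsep hq (H := H) _ _ hη hζ (w * v⁻¹) (hk w hw) (hl v hv) f3 f4 hu
      F G hF hG hFG
    rw [mul_inv_rev, inv_inv] at this
    exact this
  have p1 := hpair (z k) (z' l) (Or.inl rfl) (Or.inl rfl)
  have p2 := hpair (z k)⁻¹ (z' l) (Or.inr rfl) (Or.inl rfl)
  have p3 := hpair (z k) (z' l)⁻¹ (Or.inl rfl) (Or.inr rfl)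
  have p4 := hpair (z k)⁻¹ (z' l)⁻¹ (Or.inr rfl) (Or.inr rfl)
  refine le_trans ?_ hbound
  rw [hq1]
  simp only [hA2]
  have e1 : ⟪A q (z' l) b + A q (z' l)⁻¹ b,
        A (fun g => q g * H g) (z k) a + A (fun g => q g * H g) (z k)⁻¹ a⟫_ℂ -
      ⟪A (fun g => q g * H g) (z' l) b + A (fun g => q g * H g) (z' l)⁻¹ b,
        A q (z k) a + A q (z k)⁻¹ a⟫_ℂ =
      (⟪A q (z' l) b, A (fun g => q g * H g) (z k) a⟫_ℂ -
        ⟪A (fun g => q g * H g) (z' l) b, A q (z k) a⟫_ℂ) +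
      (⟪A q (z' l) b, A (fun g => q g * H g) (z k)⁻¹ a⟫_ℂ -
        ⟪A (fun g => q g * H g) (z' l) b, A q (z k)⁻¹ a⟫_ℂ) +
      (⟪A q (z' l)⁻¹ b, A (fun g => q g * H g) (z k) a⟫_ℂ -
        ⟪A (fun g => q g * H g) (z' l)⁻¹ b, A q (z k) a⟫_ℂ) +
      (⟪A q (z' l)⁻¹ b, A (fun g => q g * H g) (z k)⁻¹ a⟫_ℂ -
        ⟪A (fun g => q g * H g) (z' l)⁻¹ b, A q (z k)⁻¹ a⟫_ℂ) := by
    simp only [inner_add_left, inner_add_right]
    ring
  rw [e1]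
  calc _ ≤ _ := (norm_add_le _ _).trans (add_le_add_left norm_add₃_le _)
    _ ≤ (9 / N + 2 * ((N : ℝ) + 1) ^ 2 * (3 * ε)) + (9 / N + 2 * ((N : ℝ) + 1) ^ 2 * (3 * ε)) +
        (9 / N + 2 * ((N : ℝ) + 1) ^ 2 * (3 * ε)) + (9 / N + 2 * ((N : ℝ) + 1) ^ 2 * (3 * ε)) :=
        add_le_add (add_le_add (add_le_add p1 p2) p3) p4
    _ = _ := by ring

end balance

end Vale.Agent.P092.H553
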