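import Vale.Agent.P092.H553.Conj
import Vale.Agent.P092.H553.FarOf
import Vale.Agent.P092.H967.Total
import Vale.Agent.P092.H956.B5
import Vale.Agent.P092.H200.Graph

/-!
P092 (helper553): the limit `Π` attached to a vertex, its dependence on the component only, and
the contradiction with the absence of an invariant state.
-/

set_option linter.all false

open scoped InnerProductSpace
open Filter Topology ContinuousLinearMap

namespace Vale.Agent.P092.H553

open Vale.Agent.P092.H160 Vale.Agent.P092.H132 Vale.Agent.P092.H732 Vale.Agent.P092.H200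

section

variable {Γ : Subgroup G3} {Λ : Type} [Group Λ] {V : Λ →* (Ell2 Γ →L[ℂ] Ell2 Γ)}

/-- The weight on `Γ`. -/
noncomputable def qq (Γ : Subgroup G3) : Γ → ℝ := fun g => q1 (g : G3)

/-- The diagonal entries of `N*` on `Γ`. -/
noncomputable def hh (Γ : Subgroup G3) (c : Fin 3) : Γ → ℝ := fun g => NS (g : G3) c c

theorem qq_mem (g : Γ) : 0 ≤ qq Γ g ∧ qq Γ g ≤ 1 := ⟨q1_nonneg _, q1_le_one _⟩

theorem hh_mem (c : Fin 3) (g : Γ) : 0 ≤ hh Γ c g ∧ hh Γ c g ≤ 1 :=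
  ⟨NS_diag_nonneg _ _, NS_diag_le_one _ _⟩

theorem abs_qq (g : Γ) : |qq Γ g| ≤ 1 := by
  rw [abs_of_nonneg (qq_mem g).1]; exact (qq_mem g).2

theorem abs_hh (c : Fin 3) (g : Γ) : |hh Γ c g| ≤ 1 := by
  rw [abs_of_nonneg (hh_mem c g).1]; exact (hh_mem c g).2

theorem abs_mul_le_one {a b : ℝ} (ha : |a| ≤ 1) (hb : |b| ≤ 1) : |a * b| ≤ 1 := by
  rw [abs_mul]; exact mul_le_one₀ ha (abs_nonneg _) hb

theorem qq_tendsto (s t : Γ) : Tendsto (fun g : Γ => qq Γ (s * g * t) - qq Γ g) cofinite (𝓝 0) :=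
  tendsto_sub (q1_tendsto (s : G3) (t : G3))

theorem qh_tendsto (c : Fin 3) (t : Γ) :
    Tendsto (fun g : Γ => qq Γ (g * t) * hh Γ c (g * t) - qq Γ g * hh Γ c g) cofinite (𝓝 0) := by
  have h1 := tendsto_sub (Γ := Γ) (q1_tendsto 1 (t : G3))
  have h2 := tendsto_sub (Γ := Γ) (q1_NS_tendsto (t : G3) c c)
  have h3 := h1.abs.add h2
  rw [abs_zero, add_zero] at h3
  refine squeeze_zero_norm (fun g => ?_) h3
  rw [Real.norm_eq_abs, one_mul]
  have e : qq Γ (g * t) * hh Γ c (g * t) - qq Γ g * hh Γ c g =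
      (qq Γ (g * t) - qq Γ g) * hh Γ c (g * t) + qq Γ g * (hh Γ c (g * t) - hh Γ c g) := by ring
  rw [e]
  refine (abs_add_le _ _).trans (add_le_add ?_ ?_)
  · rw [abs_mul]
    exact mul_le_of_le_one_right (abs_nonneg _) (abs_hh c _)
  · rw [abs_mul, abs_of_nonneg (qq_mem g).1]
    exact le_rfl

/-- The ultrafilter. -/
noncomputable abbrev Uf : Ultrafilter ℕ := hyperfilter ℕ

/-- An escaping sequence in `A`. -/
def SeqIn (A : Subgroup Λ) (z : ℕ → Λ) : Prop := (∀ k, z k ∈ A) ∧ ∀ v : Λ, ∀ᶠ k in Uf, z k ≠ v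

theorem exists_seqIn {A : Subgroup Λ} (hA : Infinite A) : ∃ z, SeqIn A z := by
  let e := Infinite.natEmbedding A
  refine ⟨fun k => (e k : Λ), fun k => (e k).2, fun v => ?_⟩
  refine hyperfilter_le_cofinite ?_
  rw [mem_cofinite]
  refine Set.Finite.subset (Set.Subsingleton.finite (s := {k | (e k : Λ) = v}) ?_) ?_
  · intro k hk l hl
    exact e.injective (Subtype.ext ((show (e k : Λ) = v from hk).trans
      (show (e l : Λ) = v from hl).symm))
  · intro k hk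
    simpa using hk

theorem SeqIn.inv {A : Subgroup Λ} {z : ℕ → Λ} (h : SeqIn A z) :
    ∀ v : Λ, ∀ᶠ k in Uf, (z k)⁻¹ ≠ v := by
  intro v
  filter_upwards [h.2 v⁻¹] with k hk h
  exact hk (by rw [← h, inv_inv])

theorem SeqIn.cj {A : Subgroup Λ} {z : ℕ → Λ} (h : SeqIn A z) (v : Λ) :
    SeqIn (H200.cj v A) (fun k => v * z k * v⁻¹) := by
  refine ⟨fun k => ?_, fun w => ?_⟩
  · rw [mem_cj]
    have : v⁻¹ * (v * z k * v⁻¹) * v = z k := by group
    rw [this]; exact h.1 k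
  · filter_upwards [h.2 (v⁻¹ * w * v)] with k hk he
    exact hk (by rw [← he]; group)

theorem pi2_total (hV : Frame V) {A : Subgroup Λ} (hA : Vertex A) {z : ℕ → Λ} (hz : SeqIn A z) :
    Pi2 Uf V z (qq Γ) (fun _ => 1) = 1 := by
  have h := H967.pl_total hV Uf z A hz.1 (fun k v hv => hA.2 _ (hz.1 k) _ hv) hz.2 (qq Γ) qq_mem
    (fun g => q1_inv (g : G3)) qq_tendsto
  unfold Pi2
  simp only [mul_one]
  exact h

theorem smallOf (hV : Frame V) : SmallOf Uf V := by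
  intro z D C hD hD0 hU
  exact H967.small_of_tendsto hV hU hD hD0

theorem sepEst (hV : Frame V) : SepEst V := by
  intro u η ζ P T h1 h2
  exact H956.sep_est hV u η ζ P T h1 h2

theorem small_qh (hV : Frame V) (c : Fin 3) {z : ℕ → Λ} (hz : ∀ v : Λ, ∀ᶠ k in Uf, z k ≠ v)
    (t : Γ) : Small Uf V z (fun _ g => qq Γ (g * t) * hh Γ c (g * t) - qq Γ g * hh Γ c g) := by
  refine smallOf hV z _ (1 + 1) (fun g => ?_) (qh_tendsto c t) hz
  exact (abs_sub _ _).trans (add_le_add (abs_mul_le_one (abs_qq _) (abs_hh _ _))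
    (abs_mul_le_one (abs_qq _) (abs_hh _ _)))

/-- linked vertices have the same limit -/
theorem link_eq (hV : Frame V) (hconf : ∀ K : Subgroup Λ, NoMean K → Conf V K)
    {A B : Subgroup Λ} (h : Link A B) {z z' : ℕ → Λ} (hz : SeqIn A z) (hz' : SeqIn B z')
    (c : Fin 3) : Pi2 Uf V z (qq Γ) (hh Γ c) = Pi2 Uf V z' (qq Γ) (hh Γ c) := by
  apply op_ext
  intro a
  refine ext_inner_dl fun b => ?_
  rw [← inner_dl, ← inner_dl]
  refine balance hV (sepEst hV) Uf z z' qq_mem (hh_mem c) (pi2_total hV h.1 hz)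
    (pi2_total hV h.2.1 hz') a b ?_
  have hK := hconf _ h.2.2
  refine far_of_conf hV (smallOf hV) hK (fun k v hv => ?_) (fun k v hv => ?_) hz.2 hz'.2 c a b
  · exact Subgroup.mem_centralizer_iff.mp (Subgroup.mem_inf.mp hv).1 _ (hz.1 k)
  · exact Subgroup.mem_centralizer_iff.mp (Subgroup.mem_inf.mp hv).2 _ (hz'.1 k)

theorem joined_eq (hV : Frame V) (hconf : ∀ K : Subgroup Λ, NoMean K → Conf V K)
    {A B : Subgroup Λ} (hA : Link A A) (h : Joined A B) {z z' : ℕ → Λ} (hz : SeqIn A z)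
    (hz' : SeqIn B z') (c : Fin 3) :
    Pi2 Uf V z (qq Γ) (hh Γ c) = Pi2 Uf V z' (qq Γ) (hh Γ c) := by
  induction h generalizing z' with
  | refl => exact link_eq hV hconf hA hz hz' c
  | tail _ h2 ih =>
    obtain ⟨y, hy⟩ := exists_seqIn h2.1.1
    rw [ih hy, link_eq hV hconf h2 hy hz' c]

theorem stab_comm (hV : Frame V) (hconf : ∀ K : Subgroup Λ, NoMean K → Conf V K)
    {A : Subgroup Λ} (hA : Link A A) {z : ℕ → Λ} (hz : SeqIn A z) (c : Fin 3) {v : Λ}
    (hv : v ∈ stab A) :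
    Pi2 Uf V z (qq Γ) (hh Γ c) * Wr V v = Wr V v * Pi2 Uf V z (qq Γ) (hh Γ c) := by
  have h1 := joined_eq hV hconf hA (mem_stab.mp hv) hz (hz.cj v) c
  have hb : ∀ (k : ℕ) (g : Γ), |qq Γ g * hh Γ c g| ≤ 1 := fun _ g =>
    abs_mul_le_one (abs_qq g) (abs_hh c g)
  have e1 := pl_conj (U := Uf) hV (F := fun _ g => qq Γ g * hh Γ c g) hb v z
    (fun t => small_qh hV c hz.2 t)
  have e2 := pl_conj (U := Uf) hV (F := fun _ g => qq Γ g * hh Γ c g) hb v (fun k => (z k)⁻¹)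
    (fun t => small_qh hV c hz.inv t)
  conv_lhs => rw [h1]
  have e3 : (fun k => (v * z k * v⁻¹)⁻¹) = fun k => v * (z k)⁻¹ * v⁻¹ := by
    funext k; group
  unfold Pi2
  rw [e3, add_mul, mul_add, e1, e2]

end

/-! ### Averaging over cosets -/

section avg

variable {Γ Λ : Type} [Group Γ] [Group Λ] {V : Λ →* (Ell2 Γ →L[ℂ] Ell2 Γ)}

/-- The average (not normalised) of the conjugates of `T` by coset representatives. -/
noncomputable def avT (V : Λ →* (Ell2 Γ →L[ℂ] Ell2 Γ)) (L : Subgroup Λ) [Fintype (Λ ⧸ L)]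
    (T : Ell2 Γ →L[ℂ] Ell2 Γ) : Ell2 Γ →L[ℂ] Ell2 Γ :=
  ∑ c : Λ ⧸ L, Wr V c.out * T * Wr V c.out⁻¹

theorem avT_cmm (L : Subgroup Λ) [Fintype (Λ ⧸ L)] {T : Ell2 Γ →L[ℂ] Ell2 Γ}
    (hT : ∀ v ∈ L, T * Wr V v = Wr V v * T) : Cmm (Wr V) (avT V L T) := by
  have hconj : ∀ v ∈ L, Wr V v * T * Wr V v⁻¹ = T := by
    intro v hv
    rw [← hT v hv, mul_assoc, ← map_mul, mul_inv_cancel, map_one, mul_one]
  intro u
  have h1 : Wr V u * avT V L T * Wr V u⁻¹ = avT V L T := by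
    unfold avT
    rw [Finset.mul_sum, Finset.sum_mul]
    refine Fintype.sum_equiv (MulAction.toPerm u : Equiv.Perm (Λ ⧸ L)) _ _ fun c => ?_
    have h2 : ((u * c.out : Λ) : Λ ⧸ L) = u • c := by
      conv_rhs => rw [← QuotientGroup.out_eq' c]
      rfl
    have h3 : ((u • c : Λ ⧸ L).out)⁻¹ * (u * c.out) ∈ L := by
      rw [← QuotientGroup.eq, QuotientGroup.out_eq', h2]
    obtain ⟨v, hv⟩ : ∃ v, v = ((u • c : Λ ⧸ L).out)⁻¹ * (u * c.out) := ⟨_, rfl⟩
    rw [← hv] at h3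
    have h4 : u * c.out = (u • c : Λ ⧸ L).out * v := by rw [hv]; group
    have h5 := hconj v h3
    change Wr V u * (Wr V c.out * T * Wr V c.out⁻¹) * Wr V u⁻¹ =
      Wr V (u • c : Λ ⧸ L).out * T * Wr V (u • c : Λ ⧸ L).out⁻¹
    calc Wr V u * (Wr V c.out * T * Wr V c.out⁻¹) * Wr V u⁻¹ =
        Wr V (u * c.out) * T * Wr V (u * c.out)⁻¹ := by
          rw [map_mul, mul_inv_rev, map_mul]
          simp only [mul_assoc]
      _ = Wr V (u • c : Λ ⧸ L).out * (Wr V v * T * Wr V v⁻¹) *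
          Wr V (u • c : Λ ⧸ L).out⁻¹ := by
          rw [h4, map_mul, mul_inv_rev, map_mul]
          simp only [mul_assoc]
      _ = _ := by rw [h5]
  have h6 : Wr V u * avT V L T = avT V L T * Wr V u := by
    calc Wr V u * avT V L T = Wr V u * avT V L T * (Wr V u⁻¹ * Wr V u) := by
          rw [← map_mul, inv_mul_cancel, map_one, mul_one]
      _ = Wr V u * avT V L T * Wr V u⁻¹ * Wr V u := by simp only [mul_assoc]
      _ = _ := by rw [h1]
  exact h6.symm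

end avg

end Vale.Agent.P092.H553
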