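import Vale.Agent.P092.H553.Balance

/-!
P092 (helper553): the commutator lemma for two sequences, conjugation of the limits.
-/

set_option linter.all false

open scoped InnerProductSpace
open Filter Topology ContinuousLinearMap

namespace Vale.Agent.P092.H553

open Vale.Agent.P092.H160

variable {Γ Λ : Type} [Group Γ] [Group Λ] {V : Λ →* (Ell2 Γ →L[ℂ] Ell2 Γ)}
  {U : Ultrafilter ℕ} {F F' D : ℕ → Γ → ℝ} {C C' : ℝ}

/-- The commutator of `F_k` and `W_v` tends to zero weakly on left bounded vectors. -/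
theorem comm_limit (hV : Frame V) (hF : ∀ k g, |F k g| ≤ C) (v : Λ) (x y : ℕ → Λ) (a b : Γ)
    (h : ∀ t : Γ, Tendsto (fun k => ‖mo (fun g => F k (g * t) - F k g) (Wr V (y k) (dl a))‖) U
      (𝓝 0)) :
    Tendsto (fun k => ⟪Wr V (x k) (dl b), mo (F k) (Wr V v (Wr V (y k) (dl a)))⟫_ℂ -
      ⟪Wr V v⁻¹ (Wr V (x k) (dl b)), mo (F k) (Wr V (y k) (dl a))⟫_ℂ) U (𝓝 0) := by
  have hC : 0 ≤ C := (abs_nonneg _).trans (hF 0 1)
  rw [Metric.tendsto_nhds]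
  intro ε hε
  have h5 := hasSum_dl (V v⁻¹ (dl 1))
  obtain ⟨δ, hδ0, hδ⟩ : ∃ δ : ℝ, 0 < δ ∧ 2 * C * δ < ε / 2 := by
    refine ⟨ε / (4 * (C + 1)), by positivity, ?_⟩
    rw [mul_div_assoc', div_lt_iff₀ (by positivity)]
    nlinarith
  obtain ⟨s, hs⟩ := (h5.eventually (Metric.ball_mem_nhds _ hδ0)).exists
  obtain ⟨c, hc⟩ : ∃ c : Γ → ℂ, c = fun t => V v⁻¹ (dl 1) t := ⟨_, rfl⟩
  have hs1 : ‖V v⁻¹ (dl 1) - ∑ t ∈ s, c t • (dl t : Ell2 Γ)‖ ≤ δ := by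
    rw [← dist_eq_norm, dist_comm, hc]
    exact (show dist _ _ < δ from hs).le
  have hA : ∀ k, ‖Wr V v (Wr V (y k) (dl a)) - ∑ t ∈ s, c t • rho t⁻¹ (Wr V (y k) (dl a))‖ ≤ δ := by
    intro k
    rw [W_approx hV, norm_lam, V_norm hV]
    exact hs1
  have hB : ∀ k, ‖Wr V v⁻¹ (Wr V (x k) (dl b)) -
      ∑ t ∈ s, (starRingEnd ℂ) (c t) • rho t (Wr V (x k) (dl b))‖ ≤ δ := by
    intro k
    classical
    have e1 : ∑ t ∈ s, (starRingEnd ℂ) (c t) • rho t (Wr V (x k) (dl b)) =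
        ∑ t ∈ s.image (fun t => t⁻¹), (starRingEnd ℂ) (c t⁻¹) • rho t⁻¹ (Wr V (x k) (dl b)) := by
      rw [Finset.sum_image (fun x _ y _ h => inv_injective h)]
      refine Finset.sum_congr rfl fun t _ => ?_
      rw [inv_inv]
    rw [e1, W_approx hV, norm_lam, V_norm hV, inv_inv]
    have e2 : jj (V v⁻¹ (dl 1) - ∑ t ∈ s, c t • (dl t : Ell2 Γ)) = V v (dl 1) -
        ∑ t ∈ s.image (fun t => t⁻¹), (starRingEnd ℂ) (c t⁻¹) • dl t := by
      rw [map_sub, jj_V hV, inv_inv, map_sum, Finset.sum_image (fun x _ y _ h => inv_injective h)]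
      congr 1
      refine Finset.sum_congr rfl fun t _ => ?_
      rw [jj_smul, jj_dl, inv_inv]
    rw [← e2, norm_jj]
    exact hs1
  have hCm : Tendsto (fun k => ∑ t ∈ s, ‖c t‖ *
      ‖mo (fun g => F k (g * t) - F k g) (Wr V (y k) (dl a))‖) U (𝓝 0) := by
    have := tendsto_finsetSum s fun t _ => (h t).const_mul ‖c t‖
    simpa using this
  filter_upwards [(Metric.tendsto_nhds.mp hCm) (ε / 2) (by positivity)] with k hk
  rw [dist_zero_right] at hk ⊢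
  rw [Real.norm_of_nonneg (Finset.sum_nonneg fun t _ => by positivity)] at hk
  obtain ⟨η, hη⟩ : ∃ η, η = Wr V (y k) (dl a) := ⟨_, rfl⟩
  obtain ⟨ζ, hζ⟩ : ∃ ζ, ζ = Wr V (x k) (dl b) := ⟨_, rfl⟩
  have hη1 : ‖η‖ = 1 := by rw [hη, norm_W hV, norm_dl]
  have hζ1 : ‖ζ‖ = 1 := by rw [hζ, norm_W hV, norm_dl]
  have hA' := hA k
  have hB' := hB k
  rw [← hη, ← hζ]
  rw [← hη] at hA' hk
  rw [← hζ] at hB'
  obtain ⟨p, hp⟩ : ∃ p, p = Wr V v η - ∑ t ∈ s, c t • rho t⁻¹ η := ⟨_, rfl⟩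
  obtain ⟨q, hq⟩ : ∃ q, q = Wr V v⁻¹ ζ - ∑ t ∈ s, (starRingEnd ℂ) (c t) • rho t ζ := ⟨_, rfl⟩
  rw [← hp] at hA'
  rw [← hq] at hB'
  have hp' : Wr V v η = p + ∑ t ∈ s, c t • rho t⁻¹ η := by rw [hp]; abel
  have hq' : Wr V v⁻¹ ζ = q + ∑ t ∈ s, (starRingEnd ℂ) (c t) • rho t ζ := by rw [hq]; abel
  have hkey : ⟪ζ, mo (F k) (Wr V v η)⟫_ℂ - ⟪Wr V v⁻¹ ζ, mo (F k) η⟫_ℂ =
      ⟪ζ, mo (F k) p⟫_ℂ - ⟪q, mo (F k) η⟫_ℂ +
      ∑ t ∈ s, c t * ⟪ζ, rho t⁻¹ (mo (fun g => F k (g * t) - F k g) η)⟫_ℂ := by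
    rw [hp', hq', map_add, inner_add_right, inner_add_left, map_sum, inner_sum, sum_inner]
    have e3 : ∑ t ∈ s, ⟪ζ, mo (F k) (c t • rho t⁻¹ η)⟫_ℂ -
        ∑ t ∈ s, ⟪(starRingEnd ℂ) (c t) • rho t ζ, mo (F k) η⟫_ℂ =
        ∑ t ∈ s, c t * ⟪ζ, rho t⁻¹ (mo (fun g => F k (g * t) - F k g) η)⟫_ℂ := by
      rw [← Finset.sum_sub_distrib]
      refine Finset.sum_congr rfl fun t _ => ?_
      rw [map_smul, inner_smul_right, inner_smul_left, Complex.conj_conj, ← mul_sub]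
      congr 1
      have e4 : ⟪rho t ζ, mo (F k) η⟫_ℂ = ⟪ζ, rho t⁻¹ (mo (F k) η)⟫_ℂ := by
        rw [← adjoint_rho, adjoint_inner_right]
      have e5 : mo (F k) (rho t⁻¹ η) = rho t⁻¹ (mo (fun g => F k (g * t)) η) := by
        rw [rho_mo (F := fun g => F k (g * t)) (C := C) (fun g => hF k _)]
        congr 2
        funext g
        rw [inv_mul_cancel_right]
      rw [e4, e5, ← inner_sub_right, ← map_sub,
        mo_sub (F := fun g => F k (g * t)) (C := C) (fun g => hF k _) (hF k)]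
    linear_combination e3
  rw [hkey]
  have b1 : ‖⟪ζ, mo (F k) p⟫_ℂ‖ ≤ C * δ := by
    refine (norm_inner_le_norm _ _).trans ?_
    rw [hζ1, one_mul]
    refine (norm_mo_le (hF k) _).trans ?_
    gcongr
  have b2 : ‖⟪q, mo (F k) η⟫_ℂ‖ ≤ C * δ := by
    refine (norm_inner_le_norm _ _).trans ?_
    have := norm_mo_le (hF k) η
    rw [hη1, mul_one] at this
    calc ‖q‖ * ‖mo (F k) η‖ ≤ δ * C := by gcongr
      _ = C * δ := mul_comm _ _
  have b3 : ‖∑ t ∈ s, c t * ⟪ζ, rho t⁻¹ (mo (fun g => F k (g * t) - F k g) η)⟫_ℂ‖ ≤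
      ∑ t ∈ s, ‖c t‖ * ‖mo (fun g => F k (g * t) - F k g) η‖ := by
    refine (norm_sum_le _ _).trans (Finset.sum_le_sum fun t _ => ?_)
    rw [norm_mul]
    gcongr
    refine (norm_inner_le_norm _ _).trans ?_
    rw [hζ1, one_mul, norm_rho]
  calc _ ≤ ‖⟪ζ, mo (F k) p⟫_ℂ - ⟪q, mo (F k) η⟫_ℂ‖ +
        ‖∑ t ∈ s, c t * ⟪ζ, rho t⁻¹ (mo (fun g => F k (g * t) - F k g) η)⟫_ℂ‖ := norm_add_le _ _
    _ ≤ (C * δ + C * δ) + ∑ t ∈ s, ‖c t‖ * ‖mo (fun g => F k (g * t) - F k g) η‖ := by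
        refine add_le_add ((norm_sub_le _ _).trans (add_le_add b1 b2)) b3
    _ < ε := by linarith

/-- Conjugation: the limit along `v z v⁻¹` is the conjugate by `W_v` of the limit along `z`. -/
theorem pl_conj (hV : Frame V) (hF : ∀ k g, |F k g| ≤ C) (v : Λ) (z : ℕ → Λ)
    (h : ∀ t : Γ, Small U V z (fun k g => F k (g * t) - F k g)) :
    PiL U V (fun k => v * z k * v⁻¹) F * Wr V v = Wr V v * PiL U V z F := by
  have key : Wr V v⁻¹ * (PiL U V (fun k => v * z k * v⁻¹) F * Wr V v) = PiL U V z F := by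
    apply op_ext
    intro a
    refine ext_inner_dl fun b => ?_
    rw [← inner_dl, ← inner_dl, mul_ap, mul_ap]
    have e0 : ⟪(dl b : Ell2 Γ), Wr V v⁻¹ (PiL U V (fun k => v * z k * v⁻¹) F (Wr V v (dl a)))⟫_ℂ =
        ⟪Wr V v (dl b), PiL U V (fun k => v * z k * v⁻¹) F (Wr V v (dl a))⟫_ℂ := by
      have := (regRep_W hV).inner_right v⁻¹ (dl b)
        (PiL U V (fun k => v * z k * v⁻¹) F (Wr V v (dl a)))
      rw [this, inv_inv]
    rw [e0]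
    have hl1 := pl_spec (U := U) (z := fun k => v * z k * v⁻¹) hV hF (Wr V v (dl b))
      (Wr V v (dl a))
    have hl2 := pl_spec (U := U) (z := z) hV hF (dl b) (dl a)
    have hcl := comm_limit (U := U) hV hF v (fun k => v * z k) z a b (fun t => h t (dl a))
    have hd := hl1.sub hl2
    suffices hz : Tendsto (fun k => ⟪Wr V (v * z k * v⁻¹) (Wr V v (dl b)),
        mo (F k) (Wr V (v * z k * v⁻¹) (Wr V v (dl a)))⟫_ℂ -
        ⟪Wr V (z k) (dl b), mo (F k) (Wr V (z k) (dl a))⟫_ℂ) U (𝓝 0) by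
      exact sub_eq_zero.mp (tendsto_nhds_unique hd hz)
    refine hcl.congr fun k => ?_
    have e1 : ∀ ξ : Ell2 Γ, Wr V (v * z k * v⁻¹) (Wr V v ξ) = Wr V v (Wr V (z k) ξ) := by
      intro ξ
      rw [← mul_ap, ← mul_ap, ← map_mul, ← map_mul, inv_mul_cancel_right]
    have e2 : Wr V v⁻¹ (Wr V (v * z k) (dl b : Ell2 Γ)) = Wr V (z k) (dl b) := by
      rw [← mul_ap, ← map_mul, inv_mul_cancel_left]
    have e3 : Wr V (v * z k) (dl b : Ell2 Γ) = Wr V v (Wr V (z k) (dl b)) := by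
      rw [map_mul]; rfl
    rw [e1, e1, e2, e3]
  rw [← key, ← mul_assoc, ← map_mul, mul_inv_cancel, map_one, one_mul]

end Vale.Agent.P092.H553
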