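import Vale.Agent.P092.H553.Asm

/-!
P092 (helper553): the final contradiction.
-/

set_option linter.all false

open scoped InnerProductSpace
open Filter Topology ContinuousLinearMap

namespace Vale.Agent.P092.H553

open Vale.Agent.P092.H160 Vale.Agent.P092.H132 Vale.Agent.P092.H732 Vale.Agent.P092.H200

section gen

variable {Γ Λ : Type} [Group Γ] [Group Λ] {V : Λ →* (Ell2 Γ →L[ℂ] Ell2 Γ)}
  {U : Ultrafilter ℕ}

theorem pl_sum (hV : Frame V) {ι : Type} (s : Finset ι) {z : ℕ → Λ} (F : ι → ℕ → Γ → ℝ) {C : ℝ}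
    (hF : ∀ i k g, |F i k g| ≤ C) :
    PiL U V z (fun k g => ∑ i ∈ s, F i k g) = ∑ i ∈ s, PiL U V z (F i) := by
  refine op_ext_inner fun ξ η => ?_
  have h : ∀ k g, |∑ i ∈ s, F i k g| ≤ s.card * C := fun k g => by
    refine (Finset.abs_sum_le_sum_abs _ _).trans ?_
    rw [← nsmul_eq_mul]
    exact Finset.sum_le_card_nsmul _ _ _ fun j _ => hF j k g
  refine tendsto_nhds_unique (pl_spec hV h ξ η) ?_
  rw [ContinuousLinearMap.sum_apply, inner_sum]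
  have h2 := tendsto_finsetSum s fun i _ => pl_spec (U := U) (z := z) hV (hF i) ξ η
  refine h2.congr fun k => ?_
  rw [← inner_sum, ← mo_sum s (fun i => F i k) (fun i g => hF i k g)]

theorem pi2_sum (hV : Frame V) {ι : Type} (s : Finset ι) {z : ℕ → Λ} {q : Γ → ℝ}
    (F : ι → Γ → ℝ) {C : ℝ} (hF : ∀ i g, |q g * F i g| ≤ C) :
    Pi2 U V z q (fun g => ∑ i ∈ s, F i g) = ∑ i ∈ s, Pi2 U V z q (F i) := by
  unfold Pi2
  rw [Finset.sum_add_distrib]
  have e : (fun (_ : ℕ) g => q g * ∑ i ∈ s, F i g) = fun _ g => ∑ i ∈ s, q g * F i g := by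
    funext _ g; rw [Finset.mul_sum]
  rw [e, pl_sum hV s (fun i _ g => q g * F i g) (fun i _ g => hF i g),
    pl_sum hV s (fun i _ g => q g * F i g) (fun i _ g => hF i g)]

theorem pi2_const (hV : Frame V) {z : ℕ → Λ} {q : Γ → ℝ} (hq : ∀ g, |q g| ≤ 1) (c : ℝ) :
    Pi2 U V z q (fun _ => c) = (c : ℂ) • Pi2 U V z q (fun _ => 1) := by
  unfold Pi2
  have e : (fun (_ : ℕ) g => q g * c) = fun _ g => c * (q g * 1) := by
    funext _ g; ring
  have h1 : ∀ (k : ℕ) (g : Γ), |q g * 1| ≤ 1 := fun _ g => by rw [mul_one]; exact hq g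
  rw [e, pl_smul hV c h1, pl_smul hV c h1, smul_add]

theorem pi2_mono (hV : Frame V) {z : ℕ → Λ} {q F G : Γ → ℝ} (hq : ∀ g, 0 ≤ q g) {C D : ℝ}
    (hF : ∀ g, |q g * F g| ≤ C) (hG : ∀ g, |q g * G g| ≤ D) (h : ∀ g, F g ≤ G g) (ξ : Ell2 Γ) :
    (⟪ξ, Pi2 U V z q F ξ⟫_ℂ).re ≤ (⟪ξ, Pi2 U V z q G ξ⟫_ℂ).re := by
  unfold Pi2
  rw [add_apply, add_apply, inner_add_right, inner_add_right, Complex.add_re, Complex.add_re]
  refine add_le_add (pl_mono hV (fun _ => hF) (fun _ => hG) (fun _ g => ?_) ξ)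
    (pl_mono hV (fun _ => hF) (fun _ => hG) (fun _ g => ?_) ξ)
  · exact mul_le_mul_of_nonneg_left (h g) (hq g)
  · exact mul_le_mul_of_nonneg_left (h g) (hq g)

/-- The state. -/
noncomputable def nu (U : Ultrafilter ℕ) (V : Λ →* (Ell2 Γ →L[ℂ] Ell2 Γ)) (L : Subgroup Λ)
    [Fintype (Λ ⧸ L)] (z : ℕ → Λ) (q F : Γ → ℝ) : ℝ :=
  (⟪(dl 1 : Ell2 Γ), avT V L (Pi2 U V z q F) (dl 1)⟫_ℂ).re

theorem nu_eq (hV : Frame V) (L : Subgroup Λ) [Fintype (Λ ⧸ L)] (z : ℕ → Λ) (q F : Γ → ℝ) :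
    nu U V L z q F = ∑ c : Λ ⧸ L, (⟪Wr V c.out⁻¹ (dl 1 : Ell2 Γ),
      Pi2 U V z q F (Wr V c.out⁻¹ (dl 1))⟫_ℂ).re := by
  unfold nu avT
  rw [ContinuousLinearMap.sum_apply, inner_sum, Complex.re_sum]
  refine Finset.sum_congr rfl fun c _ => ?_
  rw [mul_ap, mul_ap, (regRep_W hV).inner_right]

theorem nu_sum (hV : Frame V) (L : Subgroup Λ) [Fintype (Λ ⧸ L)] {ι : Type} (s : Finset ι)
    {z : ℕ → Λ} {q : Γ → ℝ} (F : ι → Γ → ℝ) {C : ℝ} (hF : ∀ i g, |q g * F i g| ≤ C) :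
    nu U V L z q (fun g => ∑ i ∈ s, F i g) = ∑ i ∈ s, nu U V L z q (F i) := by
  simp only [nu_eq hV]
  rw [Finset.sum_comm]
  refine Finset.sum_congr rfl fun c _ => ?_
  rw [pi2_sum hV s F hF, ContinuousLinearMap.sum_apply, inner_sum, Complex.re_sum]

theorem nu_mono (hV : Frame V) (L : Subgroup Λ) [Fintype (Λ ⧸ L)] {z : ℕ → Λ} {q F G : Γ → ℝ}
    (hq : ∀ g, 0 ≤ q g) {C D : ℝ} (hF : ∀ g, |q g * F g| ≤ C) (hG : ∀ g, |q g * G g| ≤ D)
    (h : ∀ g, F g ≤ G g) : nu U V L z q F ≤ nu U V L z q G := by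
  rw [nu_eq hV, nu_eq hV]
  exact Finset.sum_le_sum fun c _ => pi2_mono hV hq hF hG h _

theorem nu_const (hV : Frame V) (L : Subgroup Λ) [Fintype (Λ ⧸ L)] {z : ℕ → Λ} {q : Γ → ℝ}
    (hq : ∀ g, |q g| ≤ 1) (c : ℝ) :
    nu U V L z q (fun _ => c) = c * nu U V L z q (fun _ => 1) := by
  simp only [nu_eq hV]
  rw [Finset.mul_sum]
  refine Finset.sum_congr rfl fun d _ => ?_
  rw [pi2_const hV hq c, smul_apply, inner_smul_right, Complex.re_ofReal_mul]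

theorem nu_one (hV : Frame V) (L : Subgroup Λ) [Fintype (Λ ⧸ L)] {z : ℕ → Λ} {q : Γ → ℝ}
    (h1 : Pi2 U V z q (fun _ => 1) = 1) : nu U V L z q (fun _ => 1) = Fintype.card (Λ ⧸ L) := by
  rw [nu_eq hV, h1]
  have : ∀ c : Λ ⧸ L, (⟪Wr V c.out⁻¹ (dl 1 : Ell2 Γ),
      (1 : Ell2 Γ →L[ℂ] Ell2 Γ) (Wr V c.out⁻¹ (dl 1))⟫_ℂ).re = 1 := by
    intro c
    change (⟪Wr V c.out⁻¹ (dl 1 : Ell2 Γ), Wr V c.out⁻¹ (dl 1)⟫_ℂ).re = 1
    rw [inner_W hV, inner_dl, dl_self, Complex.one_re]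
  rw [Finset.sum_congr rfl fun c _ => this c]
  simp

/-- Invariance of the state. -/
theorem nu_inv (hV : Frame V) (L : Subgroup Λ) [Fintype (Λ ⧸ L)] {z : ℕ → Λ} {q F : Γ → ℝ}
    (hq : ∀ g, |q g| ≤ 1) (hF : ∀ g, |F g| ≤ 1)
    (hL : ∀ v ∈ L, Pi2 U V z q F * Wr V v = Wr V v * Pi2 U V z q F) (s : Γ)
    (h1 : Small U V z (fun _ g => q (s⁻¹ * g) * F g - q g * F g))
    (h2 : Small U V (fun k => (z k)⁻¹) (fun _ g => q (s⁻¹ * g) * F g - q g * F g)) :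
    nu U V L z q (fun g => F (s * g)) = nu U V L z q F := by
  have hb : ∀ (k : ℕ) (g : Γ), |q g * F (s * g)| ≤ 1 := fun _ g => by
    rw [abs_mul]; exact mul_le_one₀ (hq _) (abs_nonneg _) (hF _)
  have hb' : ∀ (k : ℕ) (g : Γ), |q g * F g| ≤ 1 := fun _ g => by
    rw [abs_mul]; exact mul_le_one₀ (hq _) (abs_nonneg _) (hF _)
  have e1 : ∀ ξ : Ell2 Γ, lam s (Pi2 U V z q (fun g => F (s * g)) ξ) =
      Pi2 U V z q F (lam s ξ) := by
    intro ξ
    unfold Pi2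
    rw [add_apply, add_apply, map_add,
      pl_lam hV (F' := fun _ g => q g * F g) hb hb' s (by simpa only [mul_inv_cancel_left] using h1),
      pl_lam hV (F' := fun _ g => q g * F g) hb hb' s
        (by simpa only [mul_inv_cancel_left] using h2)]
  have e2 : ∀ ξ : Ell2 Γ, avT V L (Pi2 U V z q (fun g => F (s * g))) ξ =
      lam s⁻¹ (avT V L (Pi2 U V z q F) (lam s ξ)) := by
    intro ξ
    unfold avT
    rw [ContinuousLinearMap.sum_apply, ContinuousLinearMap.sum_apply, map_sum]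
    refine Finset.sum_congr rfl fun c _ => ?_
    rw [mul_ap, mul_ap, mul_ap, mul_ap, Wr_lam hV, ← e1, Wr_lam hV, ← mul_ap (lam s⁻¹),
      ← lam_mul, inv_mul_cancel, lam_one]
    rfl
  have hT : Cmm rhoH (avT V L (Pi2 U V z q F)) := cmm_rho_of_W hV (avT_cmm L hL)
  have e3 := (regRep_rho (G := Γ)).trace_comm (A := lam s⁻¹ * avT V L (Pi2 U V z q F))
    (B := lam s) ((cmm_rho_lam s⁻¹).mul hT) (cmm_rho_lam s)
  unfold nu
  rw [e2]
  have e4 : ⟪(dl 1 : Ell2 Γ), lam s⁻¹ (avT V L (Pi2 U V z q F) (lam s (dl 1)))⟫_ℂ =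
      ⟪(dl 1 : Ell2 Γ), lam s (lam s⁻¹ (avT V L (Pi2 U V z q F) (dl 1)))⟫_ℂ := e3
  rw [e4, ← mul_ap (lam s), ← lam_mul, mul_inv_cancel, lam_one]
  rfl

end gen

section unip

variable {Γ : Subgroup G3}

theorem unip7 [Γ.FiniteIndex] (c : Fin 3) :
    ∃ s : ℕ → Γ, ∀ g : Γ, ∑ m ∈ Finset.range 7, hh Γ c (s m * g) ≤ 17 / 10 := by
  obtain ⟨j, hj⟩ : ∃ j : Fin 3, c ≠ j := ⟨c + 1, by fin_cases c <;> decide⟩
  obtain ⟨E, hE⟩ : ∃ E : G3, (E : Matrix (Fin 3) (Fin 3) ℤ) = Matrix.transvection c j 1 :=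
    ⟨⟨Matrix.transvection c j 1, by simp [hj]⟩, rfl⟩
  have hEk : ∀ k : ℕ, ((E ^ k : G3) : Matrix (Fin 3) (Fin 3) ℤ) =
      Matrix.transvection c j (k : ℤ) := by
    intro k
    induction k with
    | zero =>
      rw [Nat.cast_zero, Matrix.transvection_zero]
      rfl
    | succ k ih =>
      have e : ((E ^ (k + 1) : G3) : Matrix (Fin 3) (Fin 3) ℤ) =
        ((E ^ k : G3) : Matrix (Fin 3) (Fin 3) ℤ) * (E : Matrix (Fin 3) (Fin 3) ℤ) := by
        rw [pow_succ]; rfl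
      rw [e, ih, hE, Matrix.transvection_mul_transvection_same _ _ hj]
      push_cast
      rfl
  obtain ⟨d, hd0, -, hd⟩ := Subgroup.exists_pow_mem_of_index_ne_zero
    (Subgroup.FiniteIndex.index_ne_zero (H := Γ)) E
  have hdm : ∀ m : ℕ, E ^ (d * (6 * m)) ∈ Γ := fun m => by
    rw [pow_mul]; exact Γ.pow_mem hd _
  refine ⟨fun m => ⟨E ^ (d * (6 * m)), hdm m⟩, fun g => ?_⟩
  obtain ⟨x0, hx0⟩ : ∃ x0 : ℝ, x0 = NS (g : G3) c j / NS (g : G3) c c := ⟨_, rfl⟩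
  have hb : ∀ m : ℕ, hh Γ c (⟨E ^ (d * (6 * m)), hdm m⟩ * g) *
      (1 + (((d * (6 * m) : ℕ) : ℝ) - x0) ^ 2) ≤ 1 := by
    intro m
    have := NS_transvection hj ((d * (6 * m) : ℕ) : ℤ) (E ^ (d * (6 * m))) (g : G3) (hEk _)
    rw [← hx0] at this
    exact_mod_cast this
  have hd1 : (1 : ℝ) ≤ d := by exact_mod_cast hd0
  have hterm : ∀ m : ℕ, hh Γ c (⟨E ^ (d * (6 * m)), hdm m⟩ * g) ≤
      1 / 10 + if |((d * (6 * m) : ℕ) : ℝ) - x0| < 3 then 9 / 10 else 0 := by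
    intro m
    split_ifs with h
    · have := (hh_mem c (⟨E ^ (d * (6 * m)), hdm m⟩ * g)).2
      linarith
    · have h1 := hb m
      have h2 : (9 : ℝ) ≤ (((d * (6 * m) : ℕ) : ℝ) - x0) ^ 2 := by
        rw [← sq_abs]
        have : (3 : ℝ) ≤ |((d * (6 * m) : ℕ) : ℝ) - x0| := not_lt.mp h
        nlinarith
      have h3 := (hh_mem c (⟨E ^ (d * (6 * m)), hdm m⟩ * g)).1
      nlinarith
  have hcard : (((Finset.range 7).filter fun m : ℕ => |((d * (6 * m) : ℕ) : ℝ) - x0| < 3).card : ℝ)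
      ≤ 1 := by
    have : ((Finset.range 7).filter fun m : ℕ => |((d * (6 * m) : ℕ) : ℝ) - x0| < 3).card ≤ 1 := by
      rw [Finset.card_le_one]
      intro a ha b hb'
      rw [Finset.mem_filter] at ha hb'
      have h1 := abs_lt.mp ha.2
      have h2 := abs_lt.mp hb'.2
      push_cast at h1 h2
      by_contra hne
      rcases Nat.lt_or_gt_of_ne hne with h | h
      · have h3 : (a : ℝ) + 1 ≤ b := by exact_mod_cast h
        nlinarith
      · have h3 : (b : ℝ) + 1 ≤ a := by exact_mod_cast h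
        nlinarith
    exact_mod_cast this
  calc ∑ m ∈ Finset.range 7, hh Γ c (⟨E ^ (d * (6 * m)), hdm m⟩ * g) ≤
      ∑ m ∈ Finset.range 7, (1 / 10 + if |((d * (6 * m) : ℕ) : ℝ) - x0| < 3 then 9 / 10 else 0) :=
        Finset.sum_le_sum fun m _ => hterm m
    _ = 7 * (1 / 10) + 9 / 10 * (((Finset.range 7).filter
          fun m : ℕ => |((d * (6 * m) : ℕ) : ℝ) - x0| < 3).card : ℝ) := by
        rw [Finset.sum_add_distrib, ← Finset.sum_filter, Finset.sum_const, Finset.sum_const,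
          Finset.card_range, nsmul_eq_mul, nsmul_eq_mul]
        push_cast
        ring
    _ ≤ 17 / 10 := by linarith

end unip

/-- The contradiction. -/
theorem contra {Γ : Subgroup G3} [Γ.FiniteIndex] {Λ : Type} [Group Λ]
    {V : Λ →* (Ell2 Γ →L[ℂ] Ell2 Γ)} (hV : Frame V)
    (hconf : ∀ K : Subgroup Λ, NoMean K → Conf V K) (hΛ : Clustered Λ) : False := by
  obtain ⟨A, hA, hfi⟩ := hΛ
  obtain ⟨z, hz⟩ := exists_seqIn hA.1.1
  haveI : Fintype (Λ ⧸ stab A) := Subgroup.fintypeQuotientOfFiniteIndex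
  have hone := pi2_total hV hA.1 hz
  have hqb : ∀ g : Γ, |qq Γ g| ≤ 1 := abs_qq
  have hn1 : nu Uf V (stab A) z (qq Γ) (fun _ => 1) = Fintype.card (Λ ⧸ stab A) :=
    nu_one hV _ hone
  have hpos : (0 : ℝ) < Fintype.card (Λ ⧸ stab A) := by
    exact_mod_cast Fintype.card_pos
  have hinv : ∀ (c : Fin 3) (s : Γ), nu Uf V (stab A) z (qq Γ) (fun g => hh Γ c (s * g)) =
      nu Uf V (stab A) z (qq Γ) (hh Γ c) := by
    intro c s
    have hD : Tendsto (fun g : Γ => qq Γ (s⁻¹ * g) * hh Γ c g - qq Γ g * hh Γ c g) cofinite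
        (𝓝 0) := by
      have h1 := (qq_tendsto (Γ := Γ) s⁻¹ 1).abs
      rw [abs_zero] at h1
      refine squeeze_zero_norm (fun g => ?_) h1
      rw [Real.norm_eq_abs, ← sub_mul, abs_mul, mul_one]
      exact mul_le_of_le_one_right (abs_nonneg _) (abs_hh c g)
    have hDb : ∀ g : Γ, |qq Γ (s⁻¹ * g) * hh Γ c g - qq Γ g * hh Γ c g| ≤ 1 + 1 := fun g =>
      (abs_sub _ _).trans (add_le_add (abs_mul_le_one (abs_qq _) (abs_hh _ _))
        (abs_mul_le_one (abs_qq _) (abs_hh _ _)))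
    exact nu_inv hV _ hqb (abs_hh c) (fun v hv => stab_comm hV hconf hA hz c hv) s
      (smallOf hV z _ _ hDb hD hz.2) (smallOf hV _ _ _ hDb hD hz.inv)
  have hle : ∀ c : Fin 3, nu Uf V (stab A) z (qq Γ) (hh Γ c) ≤
      17 / 70 * nu Uf V (stab A) z (qq Γ) (fun _ => 1) := by
    intro c
    obtain ⟨s, hs⟩ := unip7 (Γ := Γ) c
    have h1 : nu Uf V (stab A) z (qq Γ) (fun g => ∑ m ∈ Finset.range 7, hh Γ c (s m * g)) =
        7 * nu Uf V (stab A) z (qq Γ) (hh Γ c) := by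
      rw [nu_sum hV _ (Finset.range 7) (fun m g => hh Γ c (s m * g)) (C := 1)
        (fun m g => abs_mul_le_one (abs_qq g) (abs_hh c _))]
      rw [Finset.sum_congr rfl fun m _ => hinv c (s m), Finset.sum_const, Finset.card_range,
        nsmul_eq_mul]
      push_cast
      ring
    have h2 : nu Uf V (stab A) z (qq Γ) (fun g => ∑ m ∈ Finset.range 7, hh Γ c (s m * g)) ≤
        nu Uf V (stab A) z (qq Γ) (fun _ => 17 / 10) := by
      refine nu_mono hV _ (fun g => (qq_mem g).1) (C := 7) (D := 17 / 10) (fun g => ?_)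
        (fun g => ?_) hs
      · rw [abs_mul]
        have h3 : |∑ m ∈ Finset.range 7, hh Γ c (s m * g)| ≤ 7 := by
          refine (Finset.abs_sum_le_sum_abs _ _).trans ?_
          refine (Finset.sum_le_card_nsmul _ _ 1 fun m _ => abs_hh c _).trans ?_
          simp
        calc |qq Γ g| * |∑ m ∈ Finset.range 7, hh Γ c (s m * g)| ≤ 1 * 7 :=
              mul_le_mul (abs_qq g) h3 (abs_nonneg _) zero_le_one
          _ = 7 := one_mul _
      · rw [abs_mul]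
        calc |qq Γ g| * |(17 / 10 : ℝ)| ≤ 1 * (17 / 10) := by
              refine mul_le_mul (abs_qq g) ?_ (abs_nonneg _) zero_le_one
              rw [abs_of_nonneg (by norm_num)]
          _ = 17 / 10 := one_mul _
    rw [h1, nu_const hV _ hqb] at h2
    linarith
  have hsum : nu Uf V (stab A) z (qq Γ) (fun _ => 1) =
      ∑ c : Fin 3, nu Uf V (stab A) z (qq Γ) (hh Γ c) := by
    rw [← nu_sum hV _ Finset.univ (fun c g => hh Γ c g) (C := 1)
      (fun c g => abs_mul_le_one (abs_qq g) (abs_hh c g))]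
    congr 1
    funext g
    exact (NS_trace (g : G3)).symm
  rw [Fin.sum_univ_three] at hsum
  have h0 := hle 0
  have h1 := hle 1
  have h2 := hle 2
  rw [hn1] at h0 h1 h2 hsum
  linarith

end Vale.Agent.P092.H553
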