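import Vale.Agent.P092.H553.Contra
import Vale.Agent.P092.H538.PropA
import Vale.Agent.P092.H160.Bridge

/-!
P092 (helper553): no isomorphism `L(Γ) → L(Λ)` for `Γ` of finite index in `SL_3(ℤ)` and `Λ`
clustered.
-/

set_option linter.all false

namespace Vale.Agent.P092.H553

open Vale.Agent.P092.H160 Vale.Agent.P092.H200

theorem conf_of_noMean (Γ : Subgroup G3) {Λ : Type} [Group Λ] {V : Λ →* (Ell2 Γ →L[ℂ] Ell2 Γ)}
    (hV : Frame V) (K : Subgroup Λ) (hK : NoMean K) : Conf V K := by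
  intro ε hε
  exact H538.propA Γ hV K hK hε

theorem no_neg_one (Γ : Subgroup G3) (g : G3) (hg : g ∈ Γ) :
    (g : Matrix (Fin 3) (Fin 3) ℤ) ≠ -1 := by
  intro h
  have h1 := g.2
  rw [h, Matrix.det_neg, Matrix.det_one] at h1
  norm_num at h1

theorem no_iso (Γ : Subgroup G3) [Γ.FiniteIndex] (Λ : Type) [Group Λ] (hΛ : Clustered Λ) :
    IsEmpty (St.StarIso Γ Λ) := by
  refine ⟨fun θ => ?_⟩
  have hΓ := icc_of_fi (n := 3) (by norm_num) Γ (no_neg_one Γ)
  obtain ⟨V, hV⟩ := exists_frame hΓ (toAlg θ)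
  exact contra hV (fun K hK => conf_of_noMean Γ hV K hK) hΛ

end Vale.Agent.P092.H553
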