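import Vale.Agent.P092.H160.Assembly
import Vale.Agent.P092.H160.Bridge

/-!
P092 (helper553): the frame of an isomorphism `L(Γ) → L(Λ)` on the side of `ℓ²(Γ)`, the right
multiplications, multiplication operators and weak limits.
-/

set_option linter.all false

open scoped InnerProductSpace
open Filter Topology ContinuousLinearMap

namespace Vale.Agent.P092.H553

open Vale.Agent.P092.H160

section frame

variable {Γ Λ : Type} [Group Γ] [Group Λ]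

theorem norm_of_tr (θ : LG Γ ≃⋆ₐ[ℂ] LG Λ) (htr : ∀ T, tr (θ T) = tr T) (T : LG Γ) :
    ‖(θ T : Ell2 Λ →L[ℂ] Ell2 Λ) (dl 1)‖ = ‖(T : Ell2 Γ →L[ℂ] Ell2 Γ) (dl 1)‖ := by
  have h1 := norm_sq_eq_tr (θ T)
  rw [← theta_star, ← map_mul, htr, ← norm_sq_eq_tr] at h1
  have h2 : ‖(θ T : Ell2 Λ →L[ℂ] Ell2 Λ) (dl 1)‖ ^ 2 =
      ‖(T : Ell2 Γ →L[ℂ] Ell2 Γ) (dl 1)‖ ^ 2 := by exact_mod_cast h1
  exact (pow_left_inj₀ (norm_nonneg _) (norm_nonneg _) two_ne_zero).mp h2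

theorem diff_of_tr (θ : LG Γ ≃⋆ₐ[ℂ] LG Λ) (htr : ∀ T, tr (θ T) = tr T) (s : Λ) (a : LG Γ)
    (ha' : θ a = uu s) (t : Finset Γ) (c : Γ → ℂ) : ‖(dl s : Ell2 Λ) -
      (θ (fc t c) : Ell2 Λ →L[ℂ] Ell2 Λ) (dl 1)‖ =
      ‖(a : Ell2 Γ →L[ℂ] Ell2 Γ) (dl 1) - ∑ g ∈ t, c g • dl g‖ := by
  have h2 := norm_of_tr θ htr (a - fc t c)
  rw [map_sub, ha'] at h2
  have h3 : ((uu s - θ (fc t c) : LG Λ) : Ell2 Λ →L[ℂ] Ell2 Λ) (dl 1) =
      (dl s : Ell2 Λ) - (θ (fc t c) : Ell2 Λ →L[ℂ] Ell2 Λ) (dl 1) := by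
    change lam s (dl 1) - (θ (fc t c) : Ell2 Λ →L[ℂ] Ell2 Λ) (dl 1) = _
    rw [lam_dl, mul_one]
  have h4 : ((a - fc t c : LG Γ) : Ell2 Γ →L[ℂ] Ell2 Γ) (dl 1) =
      (a : Ell2 Γ →L[ℂ] Ell2 Γ) (dl 1) - ∑ g ∈ t, c g • dl g := by
    rw [← fc_dl]
    rfl
  rw [h3, h4] at h2
  exact h2

theorem total_of_tr (θ : LG Γ ≃⋆ₐ[ℂ] LG Λ) (htr : ∀ T, tr (θ T) = tr T) (v : Ell2 Λ)
    (hv : ∀ g, ⟪alphaOf θ g (dl 1), v⟫_ℂ = 0) : v = 0 := by
  refine eq_zero_of_inner_dl fun s => ?_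
  obtain ⟨a, ha'⟩ : ∃ a : LG Γ, θ a = uu s := ⟨θ.symm (uu s), θ.apply_symm_apply _⟩
  obtain ⟨c, hc⟩ : ∃ c : Γ → ℂ, c = fun g => (a : Ell2 Γ →L[ℂ] Ell2 Γ) (dl 1) g := ⟨_, rfl⟩
  have h0 : ∀ t : Finset Γ, ⟪(θ (fc t c) : Ell2 Λ →L[ℂ] Ell2 Λ) (dl 1), v⟫_ℂ = 0 := by
    intro t
    rw [theta_fc_dl, sum_inner]
    refine Finset.sum_eq_zero fun g _ => ?_
    rw [inner_smul_left, hv g, mul_zero]
  by_contra hne
  have h5 := hasSum_dl ((a : Ell2 Γ →L[ℂ] Ell2 Γ) (dl 1))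
  have h10 : 0 < ‖v s‖ := norm_pos_iff.mpr hne
  have hpos : 0 < ‖v s‖ / (‖v‖ + 1) := by positivity
  have h6 := h5.eventually (Metric.ball_mem_nhds _ hpos)
  obtain ⟨t, ht⟩ := h6.exists
  have h7 : ‖(a : Ell2 Γ →L[ℂ] Ell2 Γ) (dl 1) - ∑ g ∈ t, c g • dl g‖ <
      ‖v s‖ / (‖v‖ + 1) := by
    rw [← dist_eq_norm, dist_comm, hc]
    exact ht
  rw [← diff_of_tr θ htr s a ha'] at h7
  have h8 : v s = ⟪(dl s : Ell2 Λ) - (θ (fc t c) : Ell2 Λ →L[ℂ] Ell2 Λ) (dl 1), v⟫_ℂ := by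
    rw [inner_sub_left, h0, sub_zero, inner_dl]
  have h9 : ‖v s‖ ≤ ‖v s‖ / (‖v‖ + 1) * ‖v‖ := by
    conv_lhs => rw [h8]
    refine (norm_inner_le_norm _ _).trans ?_
    gcongr
  have h11 : ‖v s‖ / (‖v‖ + 1) * ‖v‖ < ‖v s‖ := by
    rw [div_mul_eq_mul_div, div_lt_iff₀ (by positivity)]
    nlinarith [norm_nonneg v]
  linarith

/-- The frame of a trace preserving isomorphism. -/
theorem frame_of_tr (θ : LG Γ ≃⋆ₐ[ℂ] LG Λ) (htr : ∀ T, tr (θ T) = tr T) :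
    Frame (alphaOf θ) where
  comm g s := LG_comm_rho (θ (uu g)).2 s
  reg :=
    { adj := fun g => by
        rw [alphaOf_apply, alphaOf_apply, ← star_uu, theta_star]
        rfl
      norm_one := norm_dl 1
      inner_zero := fun g hg => by
        have h1 := htr (uu g)
        rw [tr_eq, tr_eq] at h1
        rw [alphaOf_apply, h1]
        change ⟪(dl 1 : Ell2 Γ), lam g (dl 1)⟫_ℂ = 0
        rw [lam_dl, mul_one, inner_dl, dl_ne (Ne.symm hg)]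
      total := total_of_tr θ htr }

/-- An isomorphism `L(Γ) → L(Λ)` with `Γ` ICC gives a frame of `Λ` on `ℓ²(Γ)`. -/
theorem exists_frame (hΓ : ∀ g : Γ, g ≠ 1 → Set.Infinite {y : Γ | ∃ h, y = h * g * h⁻¹})
    (θ : LG Γ ≃⋆ₐ[ℂ] LG Λ) : ∃ V : Λ →* (Ell2 Γ →L[ℂ] Ell2 Γ), Frame V := by
  refine ⟨alphaOf θ.symm, frame_of_tr θ.symm fun T => ?_⟩
  have h := H108.tr_iso hΓ θ (θ.symm T)
  rw [θ.apply_symm_apply] at h
  exact h.symm

end frame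

/-! ### The conjugation `J` -/

section conj

variable {G : Type} [Group G]

theorem memlp_jj (ξ : Ell2 G) : Memℓp (fun g : G => (starRingEnd ℂ) (ξ g⁻¹)) 2 := by
  refine memlp_of_summable ?_
  have h := (Equiv.summable_iff (Equiv.inv G)).mpr (summable_sq ξ)
  refine h.congr fun g => ?_
  simp

/-- `(Jξ)(g) = conj ξ(g⁻¹)`. -/
noncomputable def jj : Ell2 G →ₗᵢ⋆[ℂ] Ell2 G where
  toFun ξ := ⟨fun g => (starRingEnd ℂ) (ξ g⁻¹), memlp_jj ξ⟩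
  map_add' ξ η := by
    ext g
    change (starRingEnd ℂ) ((ξ + η : Ell2 G) g⁻¹) = _
    rw [lp.coeFn_add, Pi.add_apply, map_add]
    rfl
  map_smul' c ξ := by
    ext g
    change (starRingEnd ℂ) ((c • ξ : Ell2 G) g⁻¹) = _
    rw [lp.coeFn_smul, Pi.smul_apply, smul_eq_mul, map_mul]
    rfl
  norm_map' ξ := by
    have h : ‖(⟨fun g => (starRingEnd ℂ) (ξ g⁻¹), memlp_jj ξ⟩ : Ell2 G)‖ ^ 2 = ‖ξ‖ ^ 2 := by
      rw [norm_sq, norm_sq, ← Equiv.tsum_eq (Equiv.inv G) (fun g => ‖ξ g‖ ^ 2)]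
      refine tsum_congr fun g => ?_
      change ‖(starRingEnd ℂ) (ξ g⁻¹)‖ ^ 2 = ‖ξ g⁻¹‖ ^ 2
      rw [RCLike.norm_conj]
    exact (pow_left_inj₀ (norm_nonneg _) (norm_nonneg _) two_ne_zero).mp h

@[simp] theorem jj_apply (ξ : Ell2 G) (g : G) : jj ξ g = (starRingEnd ℂ) (ξ g⁻¹) := rfl

@[simp] theorem jj_jj (ξ : Ell2 G) : jj (jj ξ) = ξ := by
  ext g
  simp

theorem jj_smul (c : ℂ) (ξ : Ell2 G) : jj (c • ξ) = (starRingEnd ℂ) c • jj ξ :=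
  (jj (G := G)).map_smulₛₗ c ξ

theorem jj_dl (g : G) : jj (dl g) = (dl g⁻¹ : Ell2 G) := by
  classical
  ext h
  rw [jj_apply, dl_apply, dl_apply]
  by_cases hh : h⁻¹ = g
  · have : h = g⁻¹ := by rw [← hh, inv_inv]
    simp [this]
  · have : h ≠ g⁻¹ := fun h1 => hh (by rw [h1, inv_inv])
    simp [hh, this]

theorem inner_jj (ξ η : Ell2 G) : ⟪jj ξ, jj η⟫_ℂ = ⟪η, ξ⟫_ℂ := by
  rw [inner_eq, inner_eq, ← Equiv.tsum_eq (Equiv.inv G)]
  refine tsum_congr fun g => ?_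
  simp [mul_comm]

theorem inner_jj_left (ξ η : Ell2 G) : ⟪jj ξ, η⟫_ℂ = ⟪jj η, ξ⟫_ℂ := by
  conv_lhs => rw [← jj_jj η, inner_jj]

theorem norm_jj (ξ : Ell2 G) : ‖jj ξ‖ = ‖ξ‖ := (jj (G := G)).norm_map ξ

/-- `J T J`. -/
noncomputable def cj (T : Ell2 G →L[ℂ] Ell2 G) : Ell2 G →L[ℂ] Ell2 G :=
  LinearMap.mkContinuous
    { toFun := fun ξ => jj (T (jj ξ))
      map_add' := fun ξ η => by simp only [map_add]
      map_smul' := fun c ξ => by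
        rw [jj_smul, map_smul, jj_smul, RingHom.id_apply, Complex.conj_conj] }
    ‖T‖ (fun ξ => by
      change ‖jj (T (jj ξ))‖ ≤ _
      rw [norm_jj]
      refine (T.le_opNorm _).trans ?_
      rw [norm_jj])

theorem cj_apply (T : Ell2 G →L[ℂ] Ell2 G) (ξ : Ell2 G) : cj T ξ = jj (T (jj ξ)) := rfl

theorem cj_mul (S T : Ell2 G →L[ℂ] Ell2 G) : cj (S * T) = cj S * cj T := by
  ext1 ξ
  rw [mul_ap, cj_apply, cj_apply, cj_apply, mul_ap, jj_jj]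

theorem cj_one : cj (1 : Ell2 G →L[ℂ] Ell2 G) = 1 := by
  ext1 ξ
  rw [cj_apply]
  exact jj_jj ξ

theorem cj_adjoint (T : Ell2 G →L[ℂ] Ell2 G) : adjoint (cj T) = cj (adjoint T) := by
  rw [eq_comm, ContinuousLinearMap.eq_adjoint_iff]
  intro x y
  rw [cj_apply, cj_apply, inner_jj_left, adjoint_inner_right, ← inner_jj, jj_jj]

theorem jj_lam (g : G) (ξ : Ell2 G) : jj (lam g ξ) = rho g (jj ξ) := by
  ext h
  rw [jj_apply, lam_apply, rho_apply, jj_apply, mul_inv_rev]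

theorem jj_rho (g : G) (ξ : Ell2 G) : jj (rho g ξ) = lam g (jj ξ) := by
  ext h
  rw [jj_apply, rho_apply, lam_apply, jj_apply, mul_inv_rev, inv_inv]

end conj

/-! ### The right regular representation of the frame -/

section right

variable {Γ Λ : Type} [Group Γ] [Group Λ] {V : Λ →* (Ell2 Γ →L[ℂ] Ell2 Γ)}

/-- The right multiplications `J V_v J`. -/
noncomputable def Wr (V : Λ →* (Ell2 Γ →L[ℂ] Ell2 Γ)) : Λ →* (Ell2 Γ →L[ℂ] Ell2 Γ) where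
  toFun v := cj (V v)
  map_one' := by rw [map_one, cj_one]
  map_mul' u v := by rw [map_mul, cj_mul]

theorem Wr_apply (v : Λ) (ξ : Ell2 Γ) : Wr V v ξ = jj (V v (jj ξ)) := rfl

section

variable (hV : Frame V)

include hV

/-- `J T δ_e = T* δ_e` for `T` in the commutant of the right regular representation. -/
theorem jj_of_cmm {T : Ell2 Γ →L[ℂ] Ell2 Γ} (hT : Cmm rhoH T) :
    jj (T (dl 1)) = adjoint T (dl 1) := by
  ext g
  rw [jj_apply, ← inner_dl, ← inner_dl, adjoint_inner_right, inner_conj_symm]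
  have h1 : (dl g : Ell2 Γ) = rho g⁻¹ (dl 1) := dl_eq_rho g
  have h2 : T (dl g) = rho g⁻¹ (T (dl 1)) := by rw [h1]; exact hT.apply g⁻¹ (dl 1)
  rw [h2, dl_eq_rho g⁻¹, inv_inv, ← inner_rho g⁻¹ (T (dl 1)), ← mul_ap (rho g⁻¹) (rho g),
    ← rho_mul, inv_mul_cancel, rho_one]
  rfl

theorem cmm_rho_V (v : Λ) : Cmm rhoH (V v) := fun s => hV.comm v s

theorem jj_V (v : Λ) : jj (V v (dl 1)) = V v⁻¹ (dl 1) := by
  rw [jj_of_cmm hV (cmm_rho_V hV v), hV.reg.adj]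

theorem Wr_xi (v : Λ) : Wr V v (dl 1) = V v⁻¹ (dl 1) := by
  rw [Wr_apply, jj_dl, inv_one, jj_V hV]

theorem Wr_lam (v : Λ) (g : Γ) (ξ : Ell2 Γ) : Wr V v (lam g ξ) = lam g (Wr V v ξ) := by
  rw [Wr_apply, Wr_apply, jj_lam, hV.apply_comm, jj_rho]

theorem cmm_lam_W (v : Λ) : Cmm lamH (Wr V v) := by
  intro g
  ext1 ξ
  exact Wr_lam hV v g ξ

theorem V_lamrho (v : Λ) (g : Γ) (ξ : Ell2 Γ) : V v (rho g ξ) = rho g (V v ξ) :=
  hV.apply_comm v g ξ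

theorem VW_comm (u v : Λ) : V u * Wr V v = Wr V v * V u := by
  have hc : ∀ g s : Γ, lamH g * rhoH s = rhoH s * lamH g := fun g s => (rho_lam s g).symm
  exact RegRep.commute regRep_lam regRep_rho hc (cmm_rho_V hV u) (cmm_lam_W hV v)

theorem VW_apply (u v : Λ) (ξ : Ell2 Γ) : V u (Wr V v ξ) = Wr V v (V u ξ) :=
  congrArg (fun T : Ell2 Γ →L[ℂ] Ell2 Γ => T ξ) (VW_comm hV u v)

theorem regRep_W : RegRep (Wr V) (dl 1) where
  adj v := by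
    change adjoint (cj (V v)) = cj (V v⁻¹)
    rw [cj_adjoint, hV.reg.adj]
  norm_one := norm_dl 1
  inner_zero v hv := by
    rw [Wr_xi hV]
    exact hV.reg.inner_zero _ (inv_ne_one.mpr hv)
  total u hu := by
    refine hV.reg.total u fun v => ?_
    have := hu v⁻¹
    rwa [Wr_xi hV, inv_inv] at this

/-- Operators commuting with all right multiplications by the frame commute with `ρ`. -/
theorem cmm_rho_of_W {T : Ell2 Γ →L[ℂ] Ell2 Γ} (hT : Cmm (Wr V) T) : Cmm rhoH T := by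
  intro s
  have hc : ∀ g s : Λ, V g * Wr V s = Wr V s * V g := fun g s => VW_comm hV g s
  refine RegRep.commute hV.reg (regRep_W hV) hc hT ?_
  intro v
  exact (hV.comm v s).symm

end

end right

end Vale.Agent.P092.H553
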